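import Vale.Agent.P106.U.H61.PDef

/-!
# P106 / U / H61 : facts about the means over the places and about `Evp` (helper61)

* `Ctx.mean_mono`, `Ctx.mean_add`, `Ctx.mean_nonneg`, `Ctx.mean_range`;  `Ctx.has` : 823's numbers at a good word.
* `Evp.and`, `Evp.mono`, `Evp.of`.
-/

set_option autoImplicit false

namespace Vale.Agent.P106.U.H61.PS

open Finset Vale.Agent.P127 Vale.Agent.P127.Stk
open Vale.Agent.P127.U.CellD (q2)
open Vale.Agent.P106.U Vale.Agent.P106.U.H565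
open Vale.Agent.P106.U.H712.Fam (Win Vl Pl)

namespace Ctx

variable {σ : S5.Cst} {cc : ℝ} {J M Md : ℕ} {p : Par} {X0 R0 h0 : ℕ} {Ω : Type} [Fintype Ω]
  (x : Ctx σ cc J M Md p X0 R0 h0 Ω) {oo : Oo} {T : ℕ}

/-- 823's numbers at a good word -/
theorem has (oo : Oo) (b0 : ℕ) {k : ℕ} {z : Vl} (hz : 0 < x.Q1.pr ((x.win oo b0).Z k) z) (hg : H712.Fam.Win.good k z) :
    H823.PathNum.Has ((x.win oo b0).cv k z).D ((x.win oo b0).R k z) ((x.win oo b0).nm k z) := by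
  obtain ⟨Ac, rc, H⟩ := (x.ho oo b0).hyp k z hz hg
  exact C2.has_erun (hm := (x.win oo b0).cv_m k z) H

theorem mem_bs {b : ℕ} : b ∈ x.bs ↔ b < x.nB + 1 - p.Tc * p.s ∧ 8 * p.B < b := by
  unfold bs
  rw [mem_filter, mem_range]

theorem mean_mono' {f g : Win Ω → ℕ → Vl → ℝ}
    (h : ∀ b0 ∈ x.bs, ∀ k < T, ∀ z, 0 < x.Q1.pr ((x.win oo b0).Z k) z → H712.Fam.Win.good k z →
      f (x.win oo b0) k z ≤ g (x.win oo b0) k z) : x.mean oo T f ≤ x.mean oo T g :=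
  Finset.sum_le_sum fun b0 hb => (x.win oo b0).av_mono (h b0 hb)

theorem mean_add {f g : Win Ω → ℕ → Vl → ℝ} :
    x.mean oo T (fun w k z => f w k z + g w k z) = x.mean oo T f + x.mean oo T g := by
  unfold mean
  rw [← Finset.sum_add_distrib]
  exact Finset.sum_congr rfl fun b0 _ => (x.win oo b0).av_add T _ _

theorem av_nonneg (w : Win Ω) {f : ℕ → Vl → ℝ} (h : ∀ k z, 0 ≤ f k z) : 0 ≤ w.av T f := by
  classical
  unfold H712.Fam.Win.av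
  refine Finset.sum_nonneg fun k _ => w.Q1.ex_nonneg fun ω _ => ?_
  split_ifs
  · exact h _ _
  · exact le_rfl

theorem av_range (w : Win Ω) {f : ℕ → Vl → ℝ} (h : ∀ k z, 0 ≤ f k z) {T' : ℕ} (hT : T ≤ T') : w.av T f ≤ w.av T' f := by
  classical
  unfold H712.Fam.Win.av
  refine Finset.sum_le_sum_of_subset_of_nonneg (Finset.range_mono hT) fun k _ _ => w.Q1.ex_nonneg fun ω _ => ?_
  split_ifs
  · exact h _ _
  · exact le_rfl

theorem mean_nonneg {f : Win Ω → ℕ → Vl → ℝ} (h : ∀ w k z, 0 ≤ f w k z) : 0 ≤ x.mean oo T f :=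
  Finset.sum_nonneg fun _ _ => av_nonneg _ (h _)

theorem mean_range {f : Win Ω → ℕ → Vl → ℝ} (h : ∀ w k z, 0 ≤ f w k z) {T' : ℕ} (hT : T ≤ T') :
    x.mean oo T f ≤ x.mean oo T' f := Finset.sum_le_sum fun _ _ => av_range _ (h _) hT

end Ctx

/-! ### eventually -/

variable {A B : Par → ℕ → ℕ → ℕ → Prop}

theorem Evp.and (h : Evp A) (h' : Evp B) : Evp fun p X R k => A p X R k ∧ B p X R k := by
  obtain ⟨m0, h⟩ := h
  obtain ⟨m0', h'⟩ := h'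
  refine ⟨max m0 m0', fun m hm => ?_⟩
  obtain ⟨B0, h⟩ := h m ((le_max_left _ _).trans hm)
  obtain ⟨B0', h'⟩ := h' m ((le_max_right _ _).trans hm)
  refine ⟨max B0 B0', fun B hB => ?_⟩
  obtain ⟨g0, h⟩ := h B ((le_max_left _ _).trans hB)
  obtain ⟨g0', h'⟩ := h' B ((le_max_right _ _).trans hB)
  refine ⟨max g0 g0', fun g hg => ?_⟩
  obtain ⟨D0, h⟩ := h g ((le_max_left _ _).trans hg)
  obtain ⟨D0', h'⟩ := h' g ((le_max_right _ _).trans hg)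
  refine ⟨max D0 D0', fun D hD s L hs hL hBL => ?_⟩
  obtain ⟨k0, h⟩ := h D ((le_max_left _ _).trans hD) s L hs hL hBL
  obtain ⟨k0', h'⟩ := h' D ((le_max_right _ _).trans hD) s L hs hL hBL
  refine ⟨max k0 k0', fun k1 hk => ?_⟩
  obtain ⟨T0, h⟩ := h k1 ((le_max_left _ _).trans hk)
  obtain ⟨T0', h'⟩ := h' k1 ((le_max_right _ _).trans hk)
  refine ⟨max T0 T0', fun Tc hT => ?_⟩
  obtain ⟨X1, R1, h1, h⟩ := h Tc ((le_max_left _ _).trans hT)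
  obtain ⟨X1', R1', h1', h'⟩ := h' Tc ((le_max_right _ _).trans hT)
  exact ⟨max X1 X1', max R1 R1', max h1 h1', fun X R k hX hR hk' =>
    ⟨h X R k ((le_max_left _ _).trans hX) ((le_max_left _ _).trans hR) ((le_max_left _ _).trans hk'),
      h' X R k ((le_max_right _ _).trans hX) ((le_max_right _ _).trans hR) ((le_max_right _ _).trans hk')⟩⟩

theorem Evp.mono (h : Evp A) (hAB : ∀ p X R k, A p X R k → B p X R k) : Evp B := by
  obtain ⟨m0, h⟩ := h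
  refine ⟨m0, fun m hm => ?_⟩
  obtain ⟨B0, h⟩ := h m hm
  refine ⟨B0, fun B hB => ?_⟩
  obtain ⟨g0, h⟩ := h B hB
  refine ⟨g0, fun g hg => ?_⟩
  obtain ⟨D0, h⟩ := h g hg
  refine ⟨D0, fun D hD s L hs hL hBL => ?_⟩
  obtain ⟨k0, h⟩ := h D hD s L hs hL hBL
  refine ⟨k0, fun k1 hk => ?_⟩
  obtain ⟨T0, h⟩ := h k1 hk
  refine ⟨T0, fun Tc hT => ?_⟩
  obtain ⟨X1, R1, h1, h⟩ := h Tc hT
  exact ⟨X1, R1, h1, fun X R k hX hR hk' => hAB _ _ _ _ (h X R k hX hR hk')⟩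

/-- a condition on `m` and `B` only -/
theorem Evp.of {C : ℕ → ℕ → Prop} (h : ∃ m0 : ℕ, ∀ m, m0 ≤ m → ∃ B0 : ℕ, ∀ B, B0 ≤ B → C m B) :
    Evp fun p _ _ _ => C p.m p.B := by
  obtain ⟨m0, h⟩ := h
  refine ⟨m0, fun m hm => ?_⟩
  obtain ⟨B0, h⟩ := h m hm
  exact ⟨B0, fun B hB => ⟨0, fun g _ => ⟨0, fun D _ s L _ _ _ => ⟨0, fun k1 _ => ⟨0, fun Tc _ => ⟨0, 0, 0,
    fun X R k _ _ _ => h B hB⟩⟩⟩⟩⟩⟩

end Vale.Agent.P106.U.H61.PS
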