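import Vale.Agent.P106.U.S3.F2
import Vale.Agent.P106.U.CellE

/-!
# P106 / U / H61 : from one cost to the sums of the record (row [EXT])

* `sOff`, `sK`, `sP`, `sL`, `sJ`, `sS`, `sV1`, `sP1`, `sV2` : left sides of `S3.F2o`; `tD`, `S3.F2b` : right sides.
* `cOff`, `cOffK`, `cOffP`, `cOffL`, `cJun`, `cS`, `cV1`, `cP1`, `cV2` : quotients, nonnegative; `cst` : their sum (over `d ≤ B`), for
  one margin `μ`, one constant `K'` and one choice of the offsets.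
* `f2o_of` : `cst ≤ 1 / 8` at `K''` gives `F2o` at every `K'` with `K' ≤ K'' ≤ 2 K'`.
* `sum_of` : **the field `sum` of `S3.F2`** from `cst ≤ 1 / 8` on the dyadic grid `K'' = 2 ^ j`, `(100 K) ^ 20 ≤ 2 ^ j ≤ 2 B`.
-/

set_option autoImplicit false

namespace Vale.Agent.P106.U.H61.Ext2

open Finset Vale.Agent.P127 Vale.Agent.P127.Stk Vale.Agent.P127.U Vale.Agent.P106.W
open Vale.Agent.P127.U.CellD (q2 Nb q2_pos Nb.eq)
open Vale.Agent.P106.U.Cell (Pth)
open Vale.Agent.P106.U.H101 (lc)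
open Vale.Agent.P106.U.H785.Mtr (Mtd)
open Vale.Agent.P106.U.S3

/-! ### monotone in the constant -/

theorem nb_mono {n : ℕ} {z ε ε' : ℝ} (h : ε ≤ ε') (hn : Nb n z ε) : Nb n z ε' := by
  obtain ⟨y, h1, h2, h3⟩ := hn
  by_contra hcon
  have hy : |y - z| ≤ ε' := by rw [abs_le]; constructor <;> linarith
  have hz : |z - ε - z| ≤ ε' := by rw [abs_le]; constructor <;> linarith
  exact h3 (Nb.eq hcon hy hz)

section exc

variable {Ω τ : Type} [Fintype Ω]

theorem prE_le (Q : Law Ω) {E E' : Ω → Prop} (h : ∀ ω, E ω → E' ω) : prE Q E ≤ prE Q E' :=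
  Bs.prE_mono' fun ω _ hE => h ω hE

theorem exc_nonneg (Q : Law Ω) (C : Pth Ω τ) (K : ℝ) (i b : ℕ) : 0 ≤ exc Q C K i b :=
  add_nonneg (add_nonneg (prE_nonneg _ _) (prE_nonneg _ _)) (prE_nonneg _ _)

theorem exc_mono (Q : Law Ω) (C : Pth Ω τ) {K K' : ℝ} (h : K ≤ K') (i b : ℕ) : exc Q C K i b ≤ exc Q C K' i b := by
  unfold exc
  refine add_le_add (add_le_add (prE_le Q fun ω hE => Pth.Bad_mono h hE) (prE_le Q fun ω hE => ?_))
    (prE_le Q fun ω hE => ?_)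
  · exact nb_mono (mul_le_mul_of_nonneg_right h (q2_pos _).le) hE
  · exact nb_mono (mul_le_mul_of_nonneg_right h (q2_pos _).le) hE

end exc

variable {Ω : Type} [Fintype Ω] {τ υ π : Type}

/-! ### left sides and right sides -/

section defs

variable (R : Run Ω τ υ) (p : Run.Num) (B bS bV : ℕ) (F : Pf R π) (Vs Xs : Finset ℕ) (μ : ℕ) (K' : ℝ)
    (o : Fin 7 → ℝ) (o' : ℕ → ℝ)

noncomputable def sOff : ℝ :=
  ∑ k ∈ range (R.n + p.J + 1), (exc R.Q (lc R.C μ o) K' k (R.m * R.b1) + exc R.Q (lc R.C μ o) K' k bS)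

open Classical in
noncomputable def sK (d : ℕ) : ℝ :=
  ∑ k ∈ IdK R Vs Xs, (exc R.Q ((mt R F μ o o').fz k k) K' k (R.m * R.b1) +
    exc R.Q ((mt R F μ o o').fz k k) K' k bV + ∑ i ∈ At' R p B d k, exc R.Q ((mt R F μ o o').fz k k) K' i (R.m * R.b1))

open Classical in
noncomputable def sP (d : ℕ) : ℝ :=
  ∑ k ∈ IdP R F B Vs Xs, (exc R.Q ((mt0 R F μ o o').fz k k) K' k (R.m * R.b1) +
    exc R.Q ((mt0 R F μ o o').fz k k) K' k bV + ∑ i ∈ At' R p B d k, exc R.Q ((mt0 R F μ o o').fz k k) K' i (R.m * R.b1))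

noncomputable def sL : ℝ :=
  ∑ k ∈ range (R.n + 1), (prE R.Q (fun ω => Nb (R.C.rk k - μ / 2) (kaL R k ω + o' 0) (K' * q2 (R.C.rk k))) +
    prE R.Q (fun ω => Nb (R.C.rk k - μ / 2) (uL R o k ω + o' 1) (K' * q2 (R.C.rk k))))

open Classical in
/-- what the letter of the path costs at the young time steps, given the frozen letter, above `K' / 2 (μ + m)` -/
noncomputable def sJ : ℝ :=
  ∑ k ∈ (Icc 1 R.n).filter (fun k => lv R k ∈ Vs ∧ lv R k ∉ Xs ∧ R.IsA k),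
    max 0 (hc R.Q (R.C.T k) ((mt R F μ o o').lt k) - K' / 2 * ((μ : ℝ) + R.m))

open Classical in
noncomputable def sS (d : ℕ) : ℝ :=
  ∑ k ∈ IdO R Vs Xs, ∑ i ∈ At' R p B d k,
    mi R.Q (LTh (lc R.C μ o) (R.m * R.b1) i) ((lc R.C μ o).cell k bS) (LDk (lc R.C μ o) (R.m * R.b1) k)

open Classical in
noncomputable def sV1 (d : ℕ) : ℝ :=
  ∑ k ∈ IdK R Vs Xs, ∑ i ∈ At' R p B d k,
    mi R.Q (LTh ((mt R F μ o o').fz k k) (R.m * R.b1) i) (((mt R F μ o o').fz k k).cell k bV)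
      (LDk ((mt R F μ o o').fz k k) (R.m * R.b1) k)

open Classical in
noncomputable def sP1 (d : ℕ) : ℝ :=
  ∑ k ∈ IdP R F B Vs Xs, ∑ i ∈ At' R p B d k,
    mi R.Q (LTh ((mt0 R F μ o o').fz k k) (R.m * R.b1) i) (((mt0 R F μ o o').fz k k).cell k bV)
      (LDk ((mt0 R F μ o o').fz k k) (R.m * R.b1) k)

open Classical in
noncomputable def sV2 (d : ℕ) : ℝ :=
  ∑ k ∈ IdK R Vs Xs, ∑ i ∈ At' R p B d k,
    mi R.Q (LTh ((mt R F μ o o').fz k k) (R.m * R.b1) i)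
      (fun ω => (((mt R F μ o o').fz k k).cell k bV ω, F.Ao (lv R k) ω, Ob R B o' k ω))
      (LDk ((mt R F μ o o').fz k k) (R.m * R.b1) k)

/-- right side of the exceptional sums -/
noncomputable def tD (d : ℕ) : ℝ := K' ^ 2 * (d + 1) ^ 2 * (R.n + p.J + 1) * q2 (μ / 4)

/-- exceptional events of the path -/
noncomputable def cOff : ℝ := sOff R p bS μ K' o / tD R p μ K' 0

/-- exceptional events of the frozen paths -/
noncomputable def cOffK (d : ℕ) : ℝ := sK R p B bV F Vs Xs μ K' o o' d / tD R p μ K' d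

noncomputable def cOffP (d : ℕ) : ℝ := sP R p B bV F Vs Xs μ K' o o' d / tD R p μ K' d

/-- exceptional events of kappa and gamma -/
noncomputable def cOffL : ℝ := sL R μ K' o o' / tD R p μ K' 0

/-- junctions -/
noncomputable def cJun : ℝ := sJ R F Vs Xs μ K' o o' / F2b R p B μ K' 0

/-- old levels -/
noncomputable def cS (d : ℕ) : ℝ := sS R p B bS Vs Xs μ o d / F2b R p B μ K' d

/-- young levels -/
noncomputable def cV1 (d : ℕ) : ℝ := sV1 R p B bV F Vs Xs μ o o' d / F2b R p B μ K' d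

noncomputable def cP1 (d : ℕ) : ℝ := sP1 R p B bV F Vs Xs μ o o' d / F2b R p B μ K' d

noncomputable def cV2 (d : ℕ) : ℝ := sV2 R p B bV F Vs Xs μ o o' d / F2b R p B μ K' d

/-- **the cost** -/
noncomputable def cst : ℝ :=
  cOff R p bS μ K' o + cOffL R p μ K' o o' + cJun R p B F Vs Xs μ K' o o' +
    ∑ d ∈ range (B + 1), (cOffK R p B bV F Vs Xs μ K' o o' d + cOffP R p B bV F Vs Xs μ K' o o' d +
      cS R p B bS Vs Xs μ K' o d + cV1 R p B bV F Vs Xs μ K' o o' d + cP1 R p B bV F Vs Xs μ K' o o' d +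
      cV2 R p B bV F Vs Xs μ K' o o' d)

end defs

/-! ### signs -/

section signs

variable {R : Run Ω τ υ} {p : Run.Num} {B bS bV : ℕ} {F : Pf R π} {Vs Xs : Finset ℕ} {μ : ℕ} {K' K'' : ℝ}
    {o : Fin 7 → ℝ} {o' : ℕ → ℝ} {d : ℕ}

theorem sOff_nonneg : 0 ≤ sOff R p bS μ K' o :=
  Finset.sum_nonneg fun _ _ => add_nonneg (exc_nonneg _ _ _ _ _) (exc_nonneg _ _ _ _ _)

theorem sK_nonneg : 0 ≤ sK R p B bV F Vs Xs μ K' o o' d :=
  Finset.sum_nonneg fun _ _ => add_nonneg (add_nonneg (exc_nonneg _ _ _ _ _) (exc_nonneg _ _ _ _ _))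
    (Finset.sum_nonneg fun _ _ => exc_nonneg _ _ _ _ _)

theorem sP_nonneg : 0 ≤ sP R p B bV F Vs Xs μ K' o o' d :=
  Finset.sum_nonneg fun _ _ => add_nonneg (add_nonneg (exc_nonneg _ _ _ _ _) (exc_nonneg _ _ _ _ _))
    (Finset.sum_nonneg fun _ _ => exc_nonneg _ _ _ _ _)

theorem sL_nonneg : 0 ≤ sL R μ K' o o' :=
  Finset.sum_nonneg fun _ _ => add_nonneg (prE_nonneg _ _) (prE_nonneg _ _)

theorem sJ_nonneg : 0 ≤ sJ R F Vs Xs μ K' o o' := Finset.sum_nonneg fun _ _ => le_max_left _ _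

theorem sS_nonneg : 0 ≤ sS R p B bS Vs Xs μ o d :=
  Finset.sum_nonneg fun _ _ => Finset.sum_nonneg fun _ _ => mi_nonneg _ _ _ _

theorem sV1_nonneg : 0 ≤ sV1 R p B bV F Vs Xs μ o o' d :=
  Finset.sum_nonneg fun _ _ => Finset.sum_nonneg fun _ _ => mi_nonneg _ _ _ _

theorem sP1_nonneg : 0 ≤ sP1 R p B bV F Vs Xs μ o o' d :=
  Finset.sum_nonneg fun _ _ => Finset.sum_nonneg fun _ _ => mi_nonneg _ _ _ _

theorem sV2_nonneg : 0 ≤ sV2 R p B bV F Vs Xs μ o o' d :=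
  Finset.sum_nonneg fun _ _ => Finset.sum_nonneg fun _ _ => mi_nonneg _ _ _ _

theorem tD_pos (hK : 0 < K') : 0 < tD R p μ K' d := by
  unfold tD
  have := q2_pos (μ / 4)
  positivity

theorem F2b_pos (hK : 0 < K') : 0 < F2b R p B μ K' d := by
  unfold F2b
  have h1 := q2_pos (μ / 8)
  have h2 : (0 : ℝ) ≤ R.h / B := by positivity
  have h3 : 0 < K' * ((d : ℝ) + 1) ^ 2 * (R.m + μ + 1) * q2 (μ / 8) * (R.n + p.J + 1) := by positivity
  linarith

theorem F2b_le (h2 : K'' ≤ 2 * K') : F2b R p B μ K'' d ≤ 2 * F2b R p B μ K' d := by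
  unfold F2b
  have h1 := (q2_pos (μ / 8)).le
  have h3 : (0 : ℝ) ≤ R.h / B := by positivity
  have h4 : 0 ≤ ((d : ℝ) + 1) ^ 2 * (R.m + μ + 1) * q2 (μ / 8) * (R.n + p.J + 1) := by positivity
  have h5 := mul_le_mul_of_nonneg_right h2 h4
  nlinarith

theorem tD_le (hK : 0 ≤ K') (h1 : 0 ≤ K'') (h2 : K'' ≤ 2 * K') : tD R p μ K'' d ≤ 4 * tD R p μ K' d := by
  unfold tD
  have h3 := (q2_pos (μ / 4)).le
  have h4 : 0 ≤ ((d : ℝ) + 1) ^ 2 * (R.n + p.J + 1) * q2 (μ / 4) := by positivity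
  have h5 : K'' ^ 2 ≤ 4 * K' ^ 2 := by nlinarith
  have h6 := mul_le_mul_of_nonneg_right h5 h4
  nlinarith

/-- one summand -/
theorem le_of_div {s T c : ℝ} (hT : 0 < T) (h : s / T ≤ c) : s ≤ c * T := by
  rwa [div_le_iff₀ hT] at h

section nn

variable (hK : 0 < K')

include hK

theorem cOff_nonneg : 0 ≤ cOff R p bS μ K' o := div_nonneg sOff_nonneg (tD_pos hK).le
theorem cOffK_nonneg : 0 ≤ cOffK R p B bV F Vs Xs μ K' o o' d := div_nonneg sK_nonneg (tD_pos hK).le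
theorem cOffP_nonneg : 0 ≤ cOffP R p B bV F Vs Xs μ K' o o' d := div_nonneg sP_nonneg (tD_pos hK).le
theorem cOffL_nonneg : 0 ≤ cOffL R p μ K' o o' := div_nonneg sL_nonneg (tD_pos hK).le
theorem cJun_nonneg : 0 ≤ cJun R p B F Vs Xs μ K' o o' := div_nonneg sJ_nonneg (F2b_pos hK).le
theorem cS_nonneg : 0 ≤ cS R p B bS Vs Xs μ K' o d := div_nonneg sS_nonneg (F2b_pos hK).le
theorem cV1_nonneg : 0 ≤ cV1 R p B bV F Vs Xs μ K' o o' d := div_nonneg sV1_nonneg (F2b_pos hK).le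
theorem cP1_nonneg : 0 ≤ cP1 R p B bV F Vs Xs μ K' o o' d := div_nonneg sP1_nonneg (F2b_pos hK).le
theorem cV2_nonneg : 0 ≤ cV2 R p B bV F Vs Xs μ K' o o' d := div_nonneg sV2_nonneg (F2b_pos hK).le

theorem cst_nonneg : 0 ≤ cst R p B bS bV F Vs Xs μ K' o o' := by
  unfold cst
  refine add_nonneg (add_nonneg (add_nonneg (cOff_nonneg hK) (cOffL_nonneg hK)) (cJun_nonneg hK))
    (Finset.sum_nonneg fun d _ => ?_)
  exact add_nonneg (add_nonneg (add_nonneg (add_nonneg (add_nonneg (cOffK_nonneg hK) (cOffP_nonneg hK))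
    (cS_nonneg hK)) (cV1_nonneg hK)) (cP1_nonneg hK)) (cV2_nonneg hK)

end nn

/-- **`F2o` from the cost**, `K' ≤ K'' ≤ 2 K'` -/
theorem f2o_of (hK : 0 < K') (h1 : K' ≤ K'') (h2 : K'' ≤ 2 * K')
    (ho : (∀ k, 0 < o k ∧ o k ≤ 1) ∧ ∀ k, 0 < o' k ∧ o' k ≤ 1) (hc : cst R p B bS bV F Vs Xs μ K'' o o' ≤ 1 / 8) :
    F2o R p B bS bV F Vs Xs μ K' o o' := by
  classical
  have hK'' : 0 < K'' := hK.trans_le h1
  have a1 := cOff_nonneg (R := R) (p := p) (bS := bS) (μ := μ) (o := o) hK''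
  have a2 := cOffL_nonneg (R := R) (p := p) (μ := μ) (o := o) (o' := o') hK''
  have a3 := cJun_nonneg (R := R) (p := p) (B := B) (F := F) (Vs := Vs) (Xs := Xs) (μ := μ) (o := o) (o' := o') hK''
  have b1 : ∀ d, 0 ≤ cOffK R p B bV F Vs Xs μ K'' o o' d := fun d => cOffK_nonneg hK''
  have b2 : ∀ d, 0 ≤ cOffP R p B bV F Vs Xs μ K'' o o' d := fun d => cOffP_nonneg hK''
  have b3 : ∀ d, 0 ≤ cS R p B bS Vs Xs μ K'' o d := fun d => cS_nonneg hK''
  have b4 : ∀ d, 0 ≤ cV1 R p B bV F Vs Xs μ K'' o o' d := fun d => cV1_nonneg hK''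
  have b5 : ∀ d, 0 ≤ cP1 R p B bV F Vs Xs μ K'' o o' d := fun d => cP1_nonneg hK''
  have b6 : ∀ d, 0 ≤ cV2 R p B bV F Vs Xs μ K'' o o' d := fun d => cV2_nonneg hK''
  unfold cst at hc
  set f : ℕ → ℝ := fun d => cOffK R p B bV F Vs Xs μ K'' o o' d + cOffP R p B bV F Vs Xs μ K'' o o' d +
      cS R p B bS Vs Xs μ K'' o d + cV1 R p B bV F Vs Xs μ K'' o o' d + cP1 R p B bV F Vs Xs μ K'' o o' d +
      cV2 R p B bV F Vs Xs μ K'' o o' d with hf
  have hf0 : ∀ d, 0 ≤ f d := fun d => by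
    have := b1 d; have := b2 d; have := b3 d; have := b4 d; have := b5 d; have := b6 d
    rw [hf]
    show 0 ≤ cOffK R p B bV F Vs Xs μ K'' o o' d + cOffP R p B bV F Vs Xs μ K'' o o' d +
      cS R p B bS Vs Xs μ K'' o d + cV1 R p B bV F Vs Xs μ K'' o o' d + cP1 R p B bV F Vs Xs μ K'' o o' d +
      cV2 R p B bV F Vs Xs μ K'' o o' d
    linarith
  have hS0 : 0 ≤ ∑ d ∈ range (B + 1), f d := Finset.sum_nonneg fun d _ => hf0 d
  have hd : ∀ d ≤ B, f d ≤ 1 / 8 := by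
    intro d hd
    have h3 := Finset.single_le_sum (f := f) (fun d _ => hf0 d) (Finset.mem_range.2 (show d < B + 1 by omega))
    linarith
  have hF : ∀ d s, s / F2b R p B μ K'' d ≤ 1 / 8 → s ≤ F2b R p B μ K' d := by
    intro d s h
    have h3 := le_of_div (F2b_pos hK'') h
    have h4 := F2b_le (R := R) (p := p) (B := B) (μ := μ) (d := d) h2
    have h5 := F2b_pos (R := R) (p := p) (B := B) (μ := μ) (d := d) hK
    linarith
  have hT : ∀ d s, s / tD R p μ K'' d ≤ 1 / 8 → s ≤ tD R p μ K' d := by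
    intro d s h
    have h3 := le_of_div (tD_pos hK'') h
    have h4 := tD_le (R := R) (p := p) (μ := μ) (d := d) hK.le hK''.le h2
    have h5 := tD_pos (R := R) (p := p) (μ := μ) (d := d) hK
    linarith
  have hexc : ∀ {σ : Type} (C : Pth Ω σ) (i b : ℕ), exc R.Q C K' i b ≤ exc R.Q C K'' i b :=
    fun C i b => exc_mono R.Q C h1 i b
  have e0 : ∀ x : ℝ, x ^ 2 * (((0 : ℕ) : ℝ) + 1) ^ 2 * (R.n + p.J + 1) * q2 (μ / 4) = x ^ 2 * (R.n + p.J + 1) * q2 (μ / 4) := by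
    intro x
    push_cast
    ring
  refine ⟨ho, ?_, fun d hdB => ?_, fun d hdB => ?_, ?_, ?_, fun d hdB => ?_, fun d hdB => ?_, fun d hdB => ?_,
    fun d hdB => ?_⟩
  · have h3 := hT 0 (sOff R p bS μ K'' o) (show cOff R p bS μ K'' o ≤ 1 / 8 by linarith)
    unfold tD at h3
    rw [e0] at h3
    have h4 : sOff R p bS μ K' o ≤ sOff R p bS μ K'' o :=
      Finset.sum_le_sum fun _ _ => add_le_add (hexc _ _ _) (hexc _ _ _)
    exact h4.trans h3
  · have h3 := hT d (sK R p B bV F Vs Xs μ K'' o o' d) (show cOffK R p B bV F Vs Xs μ K'' o o' d ≤ 1 / 8 by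
      have h9 := hd d hdB
      rw [hf] at h9
      have := b2 d; have := b3 d; have := b4 d; have := b5 d; have := b6 d
      simp only at h9
      linarith)
    refine le_trans ?_ h3
    exact Finset.sum_le_sum fun _ _ => add_le_add (add_le_add (hexc _ _ _) (hexc _ _ _))
      (Finset.sum_le_sum fun _ _ => hexc _ _ _)
  · have h3 := hT d (sP R p B bV F Vs Xs μ K'' o o' d) (show cOffP R p B bV F Vs Xs μ K'' o o' d ≤ 1 / 8 by
      have h9 := hd d hdB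
      rw [hf] at h9
      have := b1 d; have := b3 d; have := b4 d; have := b5 d; have := b6 d
      simp only at h9
      linarith)
    refine le_trans ?_ h3
    exact Finset.sum_le_sum fun _ _ => add_le_add (add_le_add (hexc _ _ _) (hexc _ _ _))
      (Finset.sum_le_sum fun _ _ => hexc _ _ _)
  · have h3 := hT 0 (sL R μ K'' o o') (show cOffL R p μ K'' o o' ≤ 1 / 8 by linarith)
    unfold tD at h3
    rw [e0] at h3
    have h4 : sL R μ K' o o' ≤ sL R μ K'' o o' :=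
      Finset.sum_le_sum fun k _ => add_le_add
        (prE_le _ fun ω hE => nb_mono (mul_le_mul_of_nonneg_right h1 (q2_pos _).le) hE)
        (prE_le _ fun ω hE => nb_mono (mul_le_mul_of_nonneg_right h1 (q2_pos _).le) hE)
    exact h4.trans h3
  · have h3 := hF 0 (sJ R F Vs Xs μ K'' o o') (show cJun R p B F Vs Xs μ K'' o o' ≤ 1 / 8 by linarith)
    refine ⟨fun k => if k ∈ (Icc 1 R.n).filter (fun k => lv R k ∈ Vs ∧ lv R k ∉ Xs ∧ R.IsA k) then
      max 0 (Stk.hc R.Q (R.C.T k) ((mt R F μ o o').lt k) - K'' / 2 * ((μ : ℝ) + R.m)) else 0, ?_, ?_, ?_⟩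
    · intro k
      beta_reduce
      split_ifs
      · exact le_max_left _ _
      · exact le_rfl
    · intro k hk hv hx hA
      beta_reduce
      rw [if_pos (Finset.mem_filter.2 ⟨hk, hv, hx, hA⟩)]
      have h4 := le_max_right (0 : ℝ) (Stk.hc R.Q (R.C.T k) ((mt R F μ o o').lt k) - K'' / 2 * ((μ : ℝ) + R.m))
      have h5 : K'' / 2 * ((μ : ℝ) + R.m) ≤ K' * ((μ : ℝ) + R.m) :=
        mul_le_mul_of_nonneg_right (by linarith) (by positivity)
      linarith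
    · refine le_trans ?_ h3
      unfold sJ
      rw [← Finset.sum_filter]
      refine Finset.sum_le_sum_of_subset_of_nonneg (fun k hk => (Finset.mem_filter.1 hk).2) fun _ _ _ => le_max_left _ _
  · exact hF d (sS R p B bS Vs Xs μ o d) (show cS R p B bS Vs Xs μ K'' o d ≤ 1 / 8 by
      have h9 := hd d hdB
      rw [hf] at h9
      have := b1 d; have := b2 d; have := b4 d; have := b5 d; have := b6 d
      simp only at h9
      linarith)
  · exact hF d (sV1 R p B bV F Vs Xs μ o o' d) (show cV1 R p B bV F Vs Xs μ K'' o o' d ≤ 1 / 8 by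
      have h9 := hd d hdB
      rw [hf] at h9
      have := b1 d; have := b2 d; have := b3 d; have := b5 d; have := b6 d
      simp only at h9
      linarith)
  · exact hF d (sP1 R p B bV F Vs Xs μ o o' d) (show cP1 R p B bV F Vs Xs μ K'' o o' d ≤ 1 / 8 by
      have h9 := hd d hdB
      rw [hf] at h9
      have := b1 d; have := b2 d; have := b3 d; have := b4 d; have := b6 d
      simp only at h9
      linarith)
  · exact hF d (sV2 R p B bV F Vs Xs μ o o' d) (show cV2 R p B bV F Vs Xs μ K'' o o' d ≤ 1 / 8 by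
      have h9 := hd d hdB
      rw [hf] at h9
      have := b1 d; have := b2 d; have := b3 d; have := b4 d; have := b5 d
      simp only at h9
      linarith)

/-- **the field `sum` of `S3.F2`** from the dyadic grid -/
theorem sum_of {K : ℝ} (hK : 1 ≤ K)
    (hc : ∀ μ ≤ B, R.m ≤ μ → ∀ j : ℕ, (100 * K) ^ 20 ≤ (2 : ℝ) ^ j → (2 : ℝ) ^ j ≤ 2 * B →
      ∃ (o : Fin 7 → ℝ) (o' : ℕ → ℝ), ((∀ k, 0 < o k ∧ o k ≤ 1) ∧ ∀ k, 0 < o' k ∧ o' k ≤ 1) ∧
        cst R p B bS bV F Vs Xs μ (2 ^ j) o o' ≤ 1 / 8) :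
    ∀ μ ≤ B, R.m ≤ μ → ∀ K' : ℝ, (100 * K) ^ 20 ≤ K' → K' ≤ B → ∃ (o : Fin 7 → ℝ) (o' : ℕ → ℝ),
      F2o R p B bS bV F Vs Xs μ K' o o' := by
  intro μ hμ hmμ K' h1 h2
  have h100 : (1 : ℝ) ≤ (100 * K) ^ 20 := one_le_pow₀ (by linarith)
  have hK' : 1 ≤ K' := h100.trans h1
  obtain ⟨n, hn1, hn2⟩ := exists_nat_pow_near hK' (one_lt_two)
  have e : (2 : ℝ) ^ (n + 1) = 2 * 2 ^ n := by ring
  obtain ⟨o, o', ho, hco⟩ := hc μ hμ hmμ (n + 1) (h1.trans hn2.le) (by rw [e]; linarith)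
  exact ⟨o, o', f2o_of (by linarith) hn2.le (by rw [e]; linarith) ho hco⟩

end signs

end Vale.Agent.P106.U.H61.Ext2
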