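import Vale.Agent.P106.U.H61.Pick
import Vale.Agent.P106.U.H428.Alpha
import Vale.Agent.P106.U.H465.SubProps

/-!
# P106 / U / H61 : normal form of the start, exact Props

* `SlbOk K0 r S h W l t` : the box `S` of level `0` (`u2 = 1`, `u1 = 2^-r`, frame `≤ 1/8`) contains the ray `l`, and the
  own-time frame (normal, kappa) of the label `W` of level `h` agrees with the frame of `S` to `r` digits.
* `Nrm` : near-extremal system, trivial letter, constant start slab `S`, `min Rm q ≤ r0 ≤ q ≤ r0 + K1 h`, the own normals of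
  `W` (of level `h`) agree with ONE vector `ρ ν` (`ν` unit, `ρ = 1 + O(2^-q)`) to `Rm` digits.
* `PNrm` : every near-extremal system has a window in normal form.
* `PEv` (helper457): event and letter of the start (`q ≥ K1 h`).
* `PSlb1`, `PSlb2` (helper428): start slab from `O(Rm)` bits; from the rounded absolute functional.
-/

set_option autoImplicit false

namespace Vale.Agent.P106.U.H61

open Vale.Agent.P127 Vale.Agent.P127.Stk Vale.Agent.P127.U Vale.Agent.P106.W Vale.Agent.P106.K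
open Vale.Agent.P106.U Vale.Agent.P106.U.H416 Vale.Agent.P106.U.H428

/-- start slab of a ray and of its label -/
structure SlbOk (K0 : ℝ) (r : ℕ) (S : Cbx) (h : ℕ) (W : Cbx) (l : Ry) (t : ℝ) : Prop where
  u2 : S.u2 = 1
  u1 : S.u1 = (1 / 2 : ℝ) ^ r
  α8 : |S.α| ≤ 1 / 8
  κ8 : |S.κ| ≤ 1 / 8
  p1 : ∀ k, |S.p k| ≤ 1
  v1 : ∀ k, |S.v k| ≤ 1
  inn : S.In 0 l.y l.s l.z
  frm : ∃ σ : ℝ, (σ = 1 ∨ σ = -1) ∧ (∀ k, |nrm W (bl h l t) k - σ * nrm S l k| ≤ K0 * (1 / 2 : ℝ) ^ r) ∧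
    |W.κ - σ * (S.κ + 2 * qa h t * S.α)| ≤ K0 * (1 / 2 : ℝ) ^ r

/-- **normal form** : class `100`, `W` of class `1/1000` -/
structure Nrm (K0 K1 : ℝ) (Rm : ℕ) (lam N k β d : ℝ) {Ω : Type} [Fintype Ω] (P : Law Ω) (l : Ω → Ry) (t : Ω → ℝ)
    (L h q r0 : ℕ) (W : Ω → Cbx) (S : Cbx) : Prop where
  nex : NEx 100 lam N k β d P l t (fun _ => ()) L h q W
  str : ∀ ω, 0 < P.w ω → LbOk (1 / 1000) L h (W ω) (l ω) (t ω)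
  t1 : ∀ ω, 0 < P.w ω → t ω < 1
  slb : ∀ ω, 0 < P.w ω → SlbOk K0 r0 S h (W ω) (l ω) (t ω)
  nu : ∃ (ν : Fin 2 → ℝ) (ρ : ℝ), ν 0 ^ 2 + ν 1 ^ 2 = 1 ∧ |ρ - 1| ≤ 1 / 100 * (1 / 2 : ℝ) ^ q ∧
    ∀ ω, 0 < P.w ω → ∀ k, |nrm (W ω) (bl h (l ω) (t ω)) k - ρ * ν k| ≤ (1 / 2 : ℝ) ^ Rm
  rm : min Rm q ≤ r0
  r0q : r0 ≤ q
  qr0 : (q : ℝ) ≤ r0 + K1 * h

/-- **normal form of the start** -/
def PNrm : Prop :=
  ∃ K0 : ℝ, 0 ≤ K0 ∧ ∀ lam N β₀ : ℝ, 0 < lam → lam < 1 → lam < β₀ → 2 ≤ N → ∃ K1 : ℝ, 0 < K1 ∧ ∀ d' : ℝ, 0 < d' →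
    ∃ η : ℝ, 0 < η ∧ ∀ k β β' : ℝ, 0 < k → k ≤ η → β₀ ≤ β → β ≤ β' → β' ≤ β + η → β' ≤ 3 → FIXA lam N (4 * k) β' →
      ∀ c : ℝ, 1 ≤ c → ∀ Rm : ℕ, ∃ h0 : ℕ, ∀ (Ω : Type) [Fintype Ω] (γ : Type) (P : Law Ω) (l : Ω → Ry) (t : Ω → ℝ)
        (C : Ω → γ) (L h q : ℕ) (W : Ω → Cbx), h0 ≤ h → NEx c lam N k β η P l t C L h q W →
        ∃ (P' : Law Ω) (l' : Ω → Ry) (t' : Ω → ℝ) (L' h' q' r0 : ℕ) (W' : Ω → Cbx) (S : Cbx),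
          (1 - d') * h ≤ (h' : ℝ) ∧ h' ≤ h ∧ Nrm K0 K1 Rm lam N (2 * k) β d' P' l' t' L' h' q' r0 W' S

/-- **event and letter of the start** : for flat labels the rounded absolute functional is a function of the ray, and its
`α` is small -/
def PEv : Prop :=
  ∀ lam N β₀ : ℝ, 0 < lam → lam < 1 → lam < β₀ → 2 ≤ N → ∃ K1 p0 : ℝ, 0 < K1 ∧ 0 < p0 ∧ ∀ θ : ℝ, 0 < θ →
    ∃ η : ℝ, 0 < η ∧ ∀ k β β' : ℝ, 0 < k → k ≤ η → β₀ ≤ β → β ≤ β' → β' ≤ β + η → β' ≤ 3 → FIXA lam N (4 * k) β' →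
      ∀ c : ℝ, 1 ≤ c → ∃ M h0 : ℕ, ∀ (Ω : Type) [Fintype Ω] (γ : Type) (P : Law Ω) (l : Ω → Ry) (t : Ω → ℝ)
        (C : Ω → γ) (L h q : ℕ) (W : Ω → Cbx), h0 ≤ h → NEx c lam N k β η P l t C L h q W →
        ∀ a ρ : ℕ, θ * h ≤ (a : ℝ) → (ρ : ℝ) + K1 * h ≤ q →
        ∃ (E : Ω → Prop) (G : Ω → Fin M), p0 ≤ prE P E ∧
          (∀ ω, 0 < P.w ω → E ω → |(Fa h (W ω) (t ω)).α| ≤ 2 ^ a) ∧
          ∀ ω ω', 0 < P.w ω → 0 < P.w ω' → E ω → E ω' → l ω = l ω' → fl1 0 (t ω) = fl1 0 (t ω') → C ω = C ω' →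
            G ω = G ω' → gk h ρ (W ω) (t ω) = gk h ρ (W ω') (t ω')

/-- **slab of `O(Rm)` bits** (window of level `a`, any label `W` of level `a + w`, class `1/1000`) -/
def PSlb1 : Prop :=
  ∃ K0 : ℝ, 0 ≤ K0 ∧ ∀ Rm : ℕ, ∃ M : ℕ, ∀ a w q : ℕ, ∃ (key : Cbx → Ry → ℝ → Fin M) (S : Fin M → Cbx),
    ∀ (L : ℕ) (W : Cbx) (l : Ry) (t : ℝ), RyOk l → 0 ≤ t → t ≤ 1 → LbOk (1 / 1000) L (a + w) W l t → W.u2 = 1 →
      W.u1 = (1 / 2 : ℝ) ^ q →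
      SlbOk K0 (min Rm q) (S (key W l t)) w
        (trB (fun k => 2 ^ w * (wo a l t k : ℝ)) (2 ^ w * (wh a l t : ℝ)) W) (wR a l t) (wt a t)

/-- **slab from the rounded absolute functional** -/
def PSlb2 : Prop :=
  ∃ (K0 : ℝ) (j0 : ℕ), 0 ≤ K0 ∧ ∃ M : ℕ, ∀ a w q r : ℕ, r ≤ q → ∃ (key : Cbx → Ry → ℝ → Fin M)
    (S : ℤ × (Fin 2 → ℤ) × ℤ → Cf → Fin M → Cbx),
    ∀ (L : ℕ) (W : Cbx) (l : Ry) (t : ℝ), RyOk l → 0 ≤ t → t ≤ 1 → LbOk (1 / 1000) L (a + w) W l t → W.u2 = 1 →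
      W.u1 = (1 / 2 : ℝ) ^ q → |(Fa (a + w) W t).α| * 2 ^ j0 ≤ 2 ^ a →
      SlbOk K0 r (S (fl1 a t, wo a l t, wh a l t) (gk (a + w) (r + a + j0) W t) (key W l t)) w
        (trB (fun k => 2 ^ w * (wo a l t k : ℝ)) (2 ^ w * (wh a l t : ℝ)) W) (wR a l t) (wt a t)

end Vale.Agent.P106.U.H61
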