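import Vale.Agent.P106.U.H416.Defs

/-!
# P106 / U / H61 : macro part of (LK-conf), exact Props (TEXT S1, note 17579), over `U/H416/Defs` (`XX`, `FIX`)

* `FIXA` : `FIX` for all classes, `bst` the best constant.
* `NEx` : near-extremal system, `W = (h; 0; q)`.
* `PExtX`, `PWinX`, `PAbs`, `PBest`, `PNEx`, `PLab` : the statements of TEXT S1.
-/

set_option autoImplicit false

namespace Vale.Agent.P106.U

open Vale.Agent.P127 Vale.Agent.P127.Stk Vale.Agent.P127.U Vale.Agent.P106.W Vale.Agent.P106.K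

/-- `FIX` for all classes -/
def FIXA (lam N k β : ℝ) : Prop := ∀ c : ℝ, 1 ≤ c → FIX c lam N k β

/-- the best constant -/
noncomputable def bst (lam N k : ℝ) : ℝ := sInf {β : ℝ | 0 ≤ β ∧ FIXA lam N k β}

/-- **EXT** -/
def PExtX : Prop :=
  ∀ c lam : ℝ, 1 ≤ c → 0 ≤ lam → lam ≤ 1 → ∃ K : ℝ, 0 ≤ K ∧ ∀ (Ω : Type) [Fintype Ω] (γ : Type) (P : Law Ω) (l : Ω → Ry)
    (t : Ω → ℝ) (C : Ω → γ) (e : Ω → ℕ × ℕ) (L a w : ℕ) (k La : ℝ), 0 ≤ k → 0 ≤ La → a + w ≤ L → SyOk P l t →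
    XX c lam k La P l t C e L (a + w) ≤ XX c lam k La P l t C e L a + (2 + 2 * k) * w * Real.log 2 + (1 + La + k) * K

/-- **WIN** with constant error -/
def PWinX : Prop :=
  ∀ lam N k La β : ℝ, 0 ≤ lam → lam ≤ 1 → 0 < k → 0 ≤ N → N ≤ La → 0 ≤ β → FIXA lam N k β →
    ∀ c : ℝ, 1 ≤ c → ∀ ε : ℝ, 0 < ε → ∃ K : ℝ, ∀ (Ω : Type) [Fintype Ω] (γ : Type) (P : Law Ω) (l : Ω → Ry)
      (t : Ω → ℝ) (C : Ω → γ) (e : Ω → ℕ × ℕ) (L a w : ℕ), a + w ≤ L → SyOk P l t →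
      XX c lam (k / 2) La P l t C e L (a + w) ≤ XX c lam (k / 2) La P l t C e L a +
        (β + ε) * w * Real.log 2 + N * (Dd P l t C (a + w) - Dd P l t C a) + K

/-- the reward of the shape is absorbed by half of the penalty (deterministic target) -/
def PAbs : Prop :=
  ∀ c lam k La : ℝ, 1 ≤ c → 0 ≤ lam → lam ≤ 1 → 0 < k → 0 ≤ La → ∃ K : ℝ, ∀ (Ω : Type) [Fintype Ω] (γ : Type) (P : Law Ω)
    (l : Ω → Ry) (t : Ω → ℝ) (C : Ω → γ) (e0 : ℕ × ℕ) (L a : ℕ), a ≤ L → SyOk P l t →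
    XX c lam k La P l t C (fun _ => e0) L a ≤ XX c lam (k / 2) 0 P l t C (fun _ => e0) L a + K

/-- **best constant** -/
def PBest : Prop :=
  ∀ lam N : ℝ, 0 < lam → lam < 1 → 0 ≤ N → (∀ k : ℝ, 0 ≤ k → 0 ≤ bst lam N k ∧ bst lam N k ≤ 2 + 2 * k ∧
      FIXA lam N k (bst lam N k) ∧ ∀ d : ℝ, 0 < d → d < bst lam N k → ¬ FIXA lam N k (bst lam N k - d)) ∧
    (∀ k k' : ℝ, 0 ≤ k → k ≤ k' → bst lam N k ≤ bst lam N k')

/-- **near-extremal system** : `W = (h; 0; q)`, class `c`, penalty `k` of the shape, rate `β`, defect `d` -/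
structure NEx (c lam N k β d : ℝ) {Ω : Type} [Fintype Ω] {γ : Type} (P : Law Ω) (l : Ω → Ry) (t : Ω → ℝ) (C : Ω → γ)
    (L h q : ℕ) (W : Ω → Cbx) : Prop where
  ok : SyOk P l t
  hL : h + q ≤ L
  lb : ∀ ω, 0 < P.w ω → LbOk c L h (W ω) (l ω) (t ω) ∧ (W ω).u2 = 1 ∧ (W ω).u1 = (1 / 2 : ℝ) ^ q
  ex : XX c lam k 0 P l t C (fun _ => (0, q)) L 0 + (β - d) * h * Real.log 2 + N * Dd P l t C h ≤ val lam P l t C h W

/-- **existence** of near-extremal systems with `h` as large as we like -/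
def PNEx : Prop :=
  ∀ lam N k β d : ℝ, 0 < lam → lam < 1 → 0 < k → k ≤ 1 → 0 ≤ N → 0 < d → ¬ FIXA lam N k (β - d / 2) →
    ∃ c : ℝ, 1 ≤ c ∧ ∀ h0 : ℕ, ∃ (Ω : Type) (_ : Fintype Ω) (γ : Type) (P : Law Ω) (l : Ω → Ry) (t : Ω → ℝ)
      (C : Ω → γ) (L h q : ℕ) (W : Ω → Cbx), h0 ≤ h ∧ NEx c lam N k β d P l t C L h q W

/-- **LAB** : labels `A` of deterministic shape `(b, R)` of level `a` (on an extension, with a letter `G`) -/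
def PLab : Prop :=
  ∀ lam N k k' β β' : ℝ, 0 ≤ lam → lam ≤ 1 → 0 ≤ k → k ≤ k' → 0 ≤ N → FIXA lam N k' β' →
    ∀ c : ℝ, 1 ≤ c → ∀ ε : ℝ, 0 < ε → ∃ K : ℝ, ∀ (d : ℝ) (Ω : Type) [Fintype Ω] (γ : Type) (P : Law Ω) (l : Ω → Ry)
      (t : Ω → ℝ) (C : Ω → γ) (L h q : ℕ) (W : Ω → Cbx), NEx c lam N k β d P l t C L h q W →
      ∀ (Ω' : Type) [Fintype Ω'] (P' : Law Ω') (π : Ω' → Ω), (∀ ω, P'.pr π ω = P.w ω) →
      ∀ (δ : Type) (G : Ω' → δ) (a b R : ℕ) (A : Ω' → Cbx), a ≤ L →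
      (∀ ω, 0 < P'.w ω → LbOk c L a (A ω) (l (π ω)) (t (π ω)) ∧ (A ω).u2 = (1 / 2 : ℝ) ^ b ∧ (A ω).u1 = (1 / 2 : ℝ) ^ R) →
      val lam P' (fun ω => l (π ω)) (fun ω => t (π ω)) (fun ω => (C (π ω), G ω)) a A ≤
        val lam P' (fun ω => l (π ω)) (fun ω => t (π ω)) (fun ω => (C (π ω), G ω)) h (fun ω => W (π ω)) -
        (β - d) * h * Real.log 2 + (β' + ε) * a * Real.log 2 -
        N * (Dd P' (fun ω => l (π ω)) (fun ω => t (π ω)) (fun ω => (C (π ω), G ω)) h -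
          Dd P' (fun ω => l (π ω)) (fun ω => t (π ω)) (fun ω => (C (π ω), G ω)) a) +
        k' * ((b : ℝ) + |(R : ℝ) - q|) * Real.log 2 +
        Stk.hc P' G (fun ω => (W (π ω), fl1 h (t (π ω)), C (π ω))) +
        N * Stk.hc P' G (fun ω => (l (π ω), C (π ω))) + K

end Vale.Agent.P106.U
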