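import Vale.Agent.P106.U.H712.Fam
import Vale.Agent.P106.U.H61.Ext2
import Vale.Agent.P106.U.H101.OffD

/-!
# P106 / U / H61 : the rows of `S3.F2o` over the places of the selection, as statements (frame of `PF2`; helper61)

Over helper712's `Fam` (ruling 5).

* `Par` : the parameters of the windows (`p.fp` : 712's numbers, `βS = βV = L s`); `Ctx` : everything that is given in `H565.PF2`
  (data after word 1, bits, `Dtm`, `HB`); `Oo` : the offsets of the letter.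
* `x.win oo b0` : 712's window at the place `b0`;  `x.ho` : its hypotheses.
* `x.mean oo T f` : sum of `w.av T (f w)` over the windows `8 B < b0`, `b0 + Tc s ≤ nB`.
* `Off` : what row [OFF] gives at one `(μ, K')` : means over `k < 2 Tc`, all levels.
* `tgt` : the target of a row;  `Evp` : eventually in all the parameters;  `Row` : the shape of a row.
* **`RowOff`, `RowOT FS FJ`, `RowS FS`, `RowV2`, `RowP1`, `RowJun FJ`** : the rows.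
-/

set_option autoImplicit false

namespace Vale.Agent.P106.U.H61.PS

open Finset Vale.Agent.P127 Vale.Agent.P127.Stk Vale.Agent.P127.U Vale.Agent.P106.W
open Vale.Agent.P127.U.CellD (q2)
open Vale.Agent.P106.U Vale.Agent.P106.U.H449
open Vale.Agent.P106.U.LinkR Vale.Agent.P106.U.InsL Vale.Agent.P106.U.InpC Vale.Agent.P106.U.StripL
open Vale.Agent.P106.U.H565 Vale.Agent.P106.U.H823.NumW
open Vale.Agent.P127.U.Nonat Vale.Agent.P127.U.YPat Vale.Agent.P127.U.JSB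
open Vale.Agent.P106.U.H712.Fam (Win Vl Pl)
open Vale.Agent.P106.U.H61.Ext2

/-- the parameters of the windows: block `m`, `B`, collar `g` and lag `D0` of the young levels, stride `s`, later cap `L` strides
further, young = changed within the last `k1` caps, `Tc` caps in a window -/
structure Par where
  m : ℕ
  B : ℕ
  g : ℕ
  D0 : ℕ
  s : ℕ
  L : ℕ
  k1 : ℕ
  Tc : ℕ

/-- 712's numbers -/
def Par.fp (p : Par) : H712.Fam.Par := ⟨p.B, p.L * p.s, p.L * p.s, p.D0, p.g, p.k1⟩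

/-- **everything given in `PF2`** -/
structure Ctx (σ : S5.Cst) (cc : ℝ) (J M Md : ℕ) (p : Par) (X0 R0 h0 : ℕ) (Ω : Type) [Fintype Ω] where
  c : C0 Ω
  hm : 3 ≤ c.I.m
  Rm : ℕ
  St : c.St Rm
  good : c.I.Good (σ.K1 + 1 / 2) 4
  eC : c.I.C1 = σ.C1
  eδ : c.I.δ1 = σ.δ1
  em : c.I.m = p.m
  eB : c.I.B = p.B
  eJ : c.I.J = J
  eM : c.I.M = M
  eMd : c.Md = Md
  hh : h0 ≤ c.I.h
  hX0 : X0 ≤ c.I.rs
  hR0 : R0 ≤ Rm
  ht : ∀ ω, 0 ≤ c.t ω ∧ c.t ω < 1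
  hc : 0 ≤ cc
  bt : Law Ω → ℕ → ℕ → Ω → Bool
  Q1 : Law Ω
  E1 : List (Lt 2)
  x1 : ℝ
  cn : Cn c.rule c.P Q1 c.I.pm.n E1 x1
  dtm : ∀ b0 kk, Dtm Q1 (c.Gb hm cc Q1 (b0 + kk * p.s)) (bt Q1 b0 kk)
  HB : ∀ (b0 k : ℕ) (z : (ℕ → Bool) × (ℕ → ℕ → ℕ)) (hz : 0 < Q1.pr (c.zW hm cc p.s bt Q1 b0 k) z), (∀ j ≤ k, z.1 j = true) →
    ∀ (o : Fin 7 → ℝ) (oK oG oN : ℝ), ∃ Ac rc : ℕ, (c.c2 hm cc good cn St.in0 hc p.s bt b0 k z hz o oK oG oN).Hyp Rm cc Ac rc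

/-- the offsets of the letter of the selection -/
structure Oo where
  o : Fin 7 → ℝ
  oK : ℝ
  oG : ℝ
  oN : ℝ

variable {σ : S5.Cst} {cc : ℝ} {J M Md : ℕ} {p : Par} {X0 R0 h0 : ℕ} {Ω : Type} [Fintype Ω]

namespace Ctx

variable (x : Ctx σ cc J M Md p X0 R0 h0 Ω)

/-- **the window at the place `b0`** -/
noncomputable def win (oo : Oo) (b0 : ℕ) : Win Ω where
  c := x.c
  hm := x.hm
  cc := cc
  hc := x.hc
  in0 := x.St.in0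
  K1 := σ.K1 + 1 / 2
  N0 := 4
  gd := x.good
  Q1 := x.Q1
  E1 := x.E1
  x1 := x.x1
  cn := x.cn
  s := p.s
  b0 := b0
  bt := x.bt
  oO := oo.o
  oK := oo.oK
  oG := oo.oG
  oN := oo.oN

/-- **its hypotheses** -/
theorem ho (oo : Oo) (b0 : ℕ) : (x.win oo b0).Ho x.Rm where
  hyp := fun k z hz hg => by
    rw [(x.win oo b0).cv_eq hz]
    exact x.HB b0 k z hz hg oo.o oo.oK oo.oG oo.oN
  dtm := x.dtm b0

/-- number of the caps -/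
noncomputable def nB : ℕ := nBl (σ.δ1 / 2) x.c.I.h p.m

/-- the windows -/
noncomputable def bs : Finset ℕ := (range (x.nB + 1 - p.Tc * p.s)).filter fun b => 8 * p.B < b

/-- **sum over the windows and the caps `k < T` of the means, on good words** -/
noncomputable def mean (oo : Oo) (T : ℕ) (f : Win Ω → ℕ → Vl → ℝ) : ℝ :=
  ∑ b0 ∈ x.bs, (x.win oo b0).av T (f (x.win oo b0))

end Ctx

/-- **what row [OFF] gives** at one margin `μ`, constant `K'`: all levels (`allV`, `∅`), caps `k < 2 Tc` -/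
structure Off (x : Ctx σ cc J M Md p X0 R0 h0 Ω) (oo : Oo) (μ : ℕ) (K' : ℝ) (o : Fin 7 → ℝ) (o' : ℕ → ℝ) : Prop where
  o1 : (∀ k, 0 < o k ∧ o k ≤ 1) ∧ ∀ k, 0 < o' k ∧ o' k ≤ 1
  avg : x.mean oo (2 * p.Tc) (fun w k z => H101.Off.o4 (w.R k z) (w.nm k z) p.B (w.bS p.fp k) (w.bV p.fp k) (w.F p.fp k z)
    (H101.Off.allV (w.R k z)) ∅ μ K' o o') ≤ 600 / K' * q2 (μ / 4) * (x.nB * p.Tc)

/-- **the target of a row** -/
noncomputable def tgt (B μ j : ℕ) : ℝ := 1 / ((B : ℝ) + 1) ^ 3 + q2 (μ / 16) * q2 (j / 4)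

/-- **eventually in all the parameters** : `m`, `B`, `g`, `D0`, (`s`, `L`), `k1`, `Tc`, (`X0`, `R0`, `h0`) -/
def Evp (A : Par → ℕ → ℕ → ℕ → Prop) : Prop :=
  ∃ m0 : ℕ, ∀ m : ℕ, m0 ≤ m → ∃ B0 : ℕ, ∀ B : ℕ, B0 ≤ B → ∃ g0 : ℕ, ∀ g : ℕ, g0 ≤ g → ∃ D1 : ℕ, ∀ D0 : ℕ, D1 ≤ D0 →
    ∀ s L : ℕ, 1 ≤ s → 1 ≤ L → B ≤ L * s → ∃ k10 : ℕ, ∀ k1 : ℕ, k10 ≤ k1 → ∃ T0 : ℕ, ∀ Tc : ℕ, T0 ≤ Tc →
      ∃ X1 R1 h1 : ℕ, ∀ X0 R0 h0 : ℕ, X1 ≤ X0 → R1 ≤ R0 → h1 ≤ h0 → A ⟨m, B, g, D0, s, L, k1, Tc⟩ X0 R0 h0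

/-- the conditions of `PF2` on the constants -/
structure Cnd (K Cψ cc : ℝ) (J M Md : ℕ) : Prop where
  hK : 648 ≤ K
  hC : 0 ≤ Cψ
  cc0 : 0 < cc
  cc1 : cc ≤ 1 / 4
  M1 : 1 ≤ M
  M2 : M + 2 ≤ Md
  J1 : A1 M + 1 ≤ J
  J2 : A3 0 M 0 + 1 ≤ J
  J3 : 3 * (Md + 1) ≤ J

/-- a family of facts about the letter offsets -/
abbrev FO := ∀ (σ : S5.Cst) (_ cc : ℝ) (J M Md : ℕ) (p : Par) (X0 R0 h0 : ℕ) (Ω : Type) [Fintype Ω],
  Ctx σ cc J M Md p X0 R0 h0 Ω → Oo → Prop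

/-- **the shape of a row** : for every `μ`, `j` of the grid and every choice `o, o'` with `Off`, the cost `Φ` has the mean `tgt` -/
def Row (FX : FO) (Φ : ∀ (_ : Par) (_ : ℕ) (_ : ℝ) (_ : Fin 7 → ℝ) (_ : ℕ → ℝ) (Ω : Type) [Fintype Ω], Win Ω → ℕ → Vl → ℝ) : Prop :=
  ∀ σ : S5.Cst, σ.Ok → ∀ (K Cψ cc : ℝ) (J M Md : ℕ), Cnd K Cψ cc J M Md →
    Evp fun p X0 R0 h0 => ∀ (Ω : Type) [Fintype Ω] (x : Ctx σ cc J M Md p X0 R0 h0 Ω) (oo : Oo),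
      FX σ K cc J M Md p X0 R0 h0 Ω x oo → ∀ μ ≤ p.B, p.m ≤ μ → ∀ j : ℕ, (100 * K) ^ 20 ≤ (2 : ℝ) ^ j → (2 : ℝ) ^ j ≤ 2 * p.B →
      ∀ (o : Fin 7 → ℝ) (o' : ℕ → ℝ), Off x oo μ (2 ^ j) o o' →
        x.mean oo p.Tc (fun w k z => if p.k1 ≤ k then Φ p μ (2 ^ j) o o' Ω w k z else 0) ≤ x.nB * p.Tc * tgt p.B μ j

/-- row [OT] : one choice of the letter offsets for both far families -/
def RowOT (FS FJ : FO) : Prop :=
  ∀ σ : S5.Cst, σ.Ok → ∀ (K Cψ cc : ℝ) (J M Md : ℕ), Cnd K Cψ cc J M Md →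
    Evp fun p X0 R0 h0 => ∀ (Ω : Type) [Fintype Ω] (x : Ctx σ cc J M Md p X0 R0 h0 Ω),
      ∃ oo : Oo, FS σ K cc J M Md p X0 R0 h0 Ω x oo ∧ FJ σ K cc J M Md p X0 R0 h0 Ω x oo

/-- row [OFF] -/
def RowOff : Prop :=
  ∀ σ : S5.Cst, σ.Ok → ∀ (K Cψ cc : ℝ) (J M Md : ℕ), Cnd K Cψ cc J M Md →
    Evp fun p X0 R0 h0 => ∀ (Ω : Type) [Fintype Ω] (x : Ctx σ cc J M Md p X0 R0 h0 Ω) (oo : Oo) (μ : ℕ) (K' : ℝ), μ ≤ p.B → 0 < K' →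
      ∃ (o : Fin 7 → ℝ) (o' : ℕ → ℝ), Off x oo μ K' o o'

/-- no facts -/
def FT : FO := fun _ _ _ _ _ _ _ _ _ _ _ _ _ _ => True

/-- row [S] -/
def RowS (FS : FO) : Prop :=
  Row FS fun p μ K' o _ _ _ w k z =>
    ∑ d ∈ range (p.B + 1), cS (w.R k z) (w.nm k z) p.B (w.bS p.fp k) (w.Vs p.fp k z) (w.Xs p.fp k z) μ K' o d

/-- row [V2] -/
def RowV2 : Prop :=
  Row FT fun p μ K' o o' _ _ w k z =>
    ∑ d ∈ range (p.B + 1), cV2 (w.R k z) (w.nm k z) p.B (w.bV p.fp k) (w.F p.fp k z) (w.Vs p.fp k z) (w.Xs p.fp k z) μ K' o o' d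

/-- row [P1] -/
def RowP1 : Prop :=
  Row FT fun p μ K' o o' _ _ w k z =>
    ∑ d ∈ range (p.B + 1), cP1 (w.R k z) (w.nm k z) p.B (w.bV p.fp k) (w.F p.fp k z) (w.Vs p.fp k z) (w.Xs p.fp k z) μ K' o o' d

/-- row [JUN] -/
def RowJun (FJ : FO) : Prop :=
  Row FJ fun p μ K' o o' _ _ w k z =>
    cJun (w.R k z) (w.nm k z) p.B (w.F p.fp k z) (w.Vs p.fp k z) (w.Xs p.fp k z) μ K' o o'

end Vale.Agent.P106.U.H61.PS
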