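import Vale.Agent.P106.U.H823.PathNum
import Vale.Agent.P106.U.S3.F2

/-!
# P106 / U / H61 : regrouping of the indices of the path (row [REG] of helper712)

Over helper823's `PathP.Lv` / `PathNum.PN` / `Has`:
* `beg a` : first index of the level `a`; index `k` <-> label `(a, j) = (lev k, k - beg (lev k))`; `f`, `k` of the label.
* `sum_lab` : a sum over indices is a sum over labels.
* `at_iff`, `sum_at` : `At R p B d k i` holds for one `i` at most, the a-step `i = J (lev k + d)`.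
* `lv_eq` : `lv R k = lev k`.
* `sum_labE`, `sum_pair` : labels `(a, r)` from the END of the level, `k = J a - r`, `i = J (a + d)`, `r ≤ B`;
  `lev_sub`, `k_sub`, `f_sub` : level and numbers of the label.
-/

set_option autoImplicit false

namespace Vale.Agent.P106.U.H61.Reg

open Finset Vale.Agent.P127 Vale.Agent.P127.Stk Vale.Agent.P106.U
open Vale.Agent.P106.U.H823.PathP Vale.Agent.P106.U.H823.PathNum

section lv

variable (L : Lv)

/-- first index of the level `a` -/
def beg (a : ℕ) : ℕ := a + L.Fm a + L.Rm a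

theorem beg_zero : beg L 0 = 0 := by
  unfold beg
  simp

theorem beg_succ (a : ℕ) : beg L (a + 1) = L.J a + 1 := by
  unfold beg Lv.J
  rw [Lv.Fm_succ, Lv.Rm_succ]
  omega

theorem beg_le_J (a : ℕ) : beg L a ≤ L.J a := by
  unfold beg Lv.J
  have h1 := L.Fm_le a
  have h2 := L.Rm_le a
  omega

theorem beg_le (k : ℕ) : beg L (L.lev k) ≤ k := L.beg_le k

theorem beg_lt {a b : ℕ} (h : a < b) : L.J a < beg L b := by
  obtain ⟨c, rfl⟩ : ∃ c, b = c + 1 := ⟨b - 1, by omega⟩
  rw [beg_succ]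
  have := L.J_mono.monotone (show a ≤ c by omega)
  omega

/-- the label of an index -/
def off (k : ℕ) : ℕ := k - beg L (L.lev k)

theorem beg_off (k : ℕ) : beg L (L.lev k) + off L k = k := by
  unfold off
  have := beg_le L k
  omega

theorem off_le (k : ℕ) : beg L (L.lev k) + off L k ≤ L.J (L.lev k) := by
  rw [beg_off]
  exact L.le_J_lev k

theorem lev_beg {a j : ℕ} (h : beg L a + j ≤ L.J a) : L.lev (beg L a + j) = a := by
  rw [L.lev_iff]
  refine ⟨?_, h⟩
  rcases Nat.eq_zero_or_pos a with h0 | h0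
  · exact Or.inl h0
  · right
    have := beg_lt L (show a - 1 < a by omega)
    omega

theorem off_beg {a j : ℕ} (h : beg L a + j ≤ L.J a) : off L (beg L a + j) = j := by
  unfold off
  rw [lev_beg L h]
  omega

theorem f_beg {a j : ℕ} (h : beg L a + j ≤ L.J a) : L.f (beg L a + j) = min (L.F a) (L.Fm a + j) := by
  show min (L.F (L.lev (beg L a + j))) (beg L a + j - L.lev (beg L a + j) - L.Rm (L.lev (beg L a + j))) = _
  rw [lev_beg L h]
  congr 1
  unfold beg
  omega

theorem k_beg {a j : ℕ} (h : beg L a + j ≤ L.J a) :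
    L.k (beg L a + j) = L.Rm a + (j - (L.F a - L.Fm a)) := by
  have h1 := L.sum_eq (beg L a + j)
  rw [lev_beg L h, f_beg L h] at h1
  have h2 := L.Fm_le a
  have h3 : beg L a + j = a + L.Fm a + L.Rm a + j := rfl
  omega

/-- number of indices of the level -/
theorem J_sub_beg (a : ℕ) : L.J a - beg L a = (L.F a - L.Fm a) + (L.R a - L.Rm a) := by
  have h1 := L.Fm_le a
  have h2 := L.Rm_le a
  unfold beg Lv.J
  omega

/-- **a sum over indices is a sum over labels** -/
theorem sum_lab (S : Finset ℕ) (I : Finset (ℕ × ℕ)) (hI : ∀ k ∈ S, (L.lev k, off L k) ∈ I) (g : ℕ → ℝ) :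
    ∑ k ∈ S, g k =
      ∑ x ∈ I, if beg L x.1 + x.2 ∈ S ∧ beg L x.1 + x.2 ≤ L.J x.1 then g (beg L x.1 + x.2) else 0 := by
  classical
  rw [← Finset.sum_filter]
  symm
  refine Finset.sum_bij' (fun x _ => beg L x.1 + x.2) (fun k _ => (L.lev k, off L k)) ?_ ?_ ?_ ?_ ?_
  · intro x hx
    exact (Finset.mem_filter.1 hx).2.1
  · intro k hk
    rw [Finset.mem_filter]
    refine ⟨hI k hk, ?_, ?_⟩
    · show beg L (L.lev k) + off L k ∈ S
      rwa [beg_off]
    · exact off_le L k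
  · intro x hx
    have h1 := (Finset.mem_filter.1 hx).2.2
    exact Prod.ext (lev_beg L h1) (off_beg L h1)
  · intro k _
    exact beg_off L k
  · intro x _
    rfl

theorem lev_beg_zero (a : ℕ) : L.lev (beg L a) = a := by
  have := lev_beg L (a := a) (j := 0) (beg_le_J L a)
  rwa [Nat.add_zero] at this

/-- label from the end of the level: `k = J a - r` -/
theorem lev_sub {a r : ℕ} (h : beg L a + r ≤ L.J a) : L.lev (L.J a - r) = a := by
  have h1 : L.J a - r = beg L a + (L.J a - r - beg L a) := by omega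
  rw [h1]
  exact lev_beg L (by omega)

theorem k_sub {a r : ℕ} (h : beg L a + r ≤ L.J a) : L.k (L.J a - r) = max (L.Rm a) (L.R a - r) := by
  have h1 : L.J a - r = beg L a + (L.J a - r - beg L a) := by omega
  rw [h1, k_beg L (by omega)]
  have h2 := L.Fm_le a
  have h3 := L.Rm_le a
  unfold beg Lv.J at h ⊢
  omega

theorem f_sub {a r : ℕ} (h : beg L a + r ≤ L.J a) :
    L.f (L.J a - r) = L.F a - (r - (L.R a - L.Rm a)) := by
  have h1 : L.J a - r = beg L a + (L.J a - r - beg L a) := by omega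
  rw [h1, f_beg L (by omega)]
  have h2 := L.Fm_le a
  have h3 := L.Rm_le a
  unfold beg Lv.J at h ⊢
  omega

/-- **a sum over indices is a sum over labels**, labels from the end of the level -/
theorem sum_labE (S : Finset ℕ) (I : Finset (ℕ × ℕ)) (hI : ∀ k ∈ S, (L.lev k, L.J (L.lev k) - k) ∈ I) (g : ℕ → ℝ) :
    ∑ k ∈ S, g k =
      ∑ x ∈ I, if L.J x.1 - x.2 ∈ S ∧ beg L x.1 + x.2 ≤ L.J x.1 then g (L.J x.1 - x.2) else 0 := by
  classical
  rw [← Finset.sum_filter]
  symm
  refine Finset.sum_bij' (fun x _ => L.J x.1 - x.2) (fun k _ => (L.lev k, L.J (L.lev k) - k)) ?_ ?_ ?_ ?_ ?_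
  · intro x hx
    exact (Finset.mem_filter.1 hx).2.1
  · intro k hk
    rw [Finset.mem_filter]
    have h1 := L.le_J_lev k
    have h2 := beg_le L k
    refine ⟨hI k hk, ?_, ?_⟩
    · show L.J (L.lev k) - (L.J (L.lev k) - k) ∈ S
      rwa [Nat.sub_sub_self h1]
    · show beg L (L.lev k) + (L.J (L.lev k) - k) ≤ L.J (L.lev k)
      omega
  · intro x hx
    have h1 := (Finset.mem_filter.1 hx).2.2
    refine Prod.ext (lev_sub L h1) ?_
    show L.J (L.lev (L.J x.1 - x.2)) - (L.J x.1 - x.2) = x.2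
    rw [lev_sub L h1]
    omega
  · intro k _
    exact Nat.sub_sub_self (L.le_J_lev k)
  · intro x _
    rfl

end lv

section run

variable {Ω : Type} [Fintype Ω] {τ υ : Type} {D : PN} {R : S3.Run Ω τ υ} {p : S3.Run.Num} (H : Has D R p)

include H

/-- the a-step of a later time level -/
theorem at_iff {B d k i : ℕ} (hk : k ≤ D.N) :
    S3.At R p B d k i ↔ i = D.L.J (D.L.lev k + d) ∧ k < i ∧ i ≤ k + B ∧ i < D.N := by
  have hm := D.m1
  unfold S3.At
  rw [H.N, H.a, H.m]
  constructor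
  · rintro ⟨h1, h2, h3, h4, h5⟩
    have h6 : i < D.N := by
      rcases Nat.lt_or_ge i D.N with h | h
      · exact h
      · exfalso
        have h7 := D.not_isA h
        unfold S3.Run.IsA at h5
        rw [H.a, H.m] at h5
        exact h7 h5
    have h7 := (H.isA h6).1 h5
    rw [D.la_eq h3, D.la_eq hk, Nat.mul_comm d D.m, ← Nat.mul_add] at h4
    have h8 : D.L.lev i = D.L.lev k + d := Nat.eq_of_mul_eq_mul_left (by omega) h4
    have h9 := (D.L.kd_zero_iff i).1 h7
    rw [h8] at h9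
    exact ⟨h9, h1, h2, h6⟩
  · rintro ⟨h1, h2, h3, h4⟩
    refine ⟨h2, h3, h4.le, ?_, (H.isA h4).2 ?_⟩
    · have h6 : D.L.lev i = D.L.lev k + d := by rw [h1, D.L.lev_J]
      rw [D.la_eq h4.le, D.la_eq hk, h6, Nat.mul_comm d D.m, ← Nat.mul_add]
    · rw [h1]
      exact D.L.kd_J _

/-- at most one index -/
theorem At'_sub {B d k : ℕ} (hk : k ≤ D.N) : S3.At' R p B d k ⊆ {D.L.J (D.L.lev k + d)} := by
  classical
  intro i hi
  rw [Finset.mem_singleton]
  exact ((at_iff H hk).1 (Finset.mem_filter.1 hi).2).1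

open Classical in
theorem sum_at {B d k : ℕ} (hk : k ≤ D.N) (g : ℕ → ℝ) :
    ∑ i ∈ S3.At' R p B d k, g i =
      if k < D.L.J (D.L.lev k + d) ∧ D.L.J (D.L.lev k + d) ≤ k + B ∧ D.L.J (D.L.lev k + d) < D.N then
        g (D.L.J (D.L.lev k + d)) else 0 := by
  by_cases h : k < D.L.J (D.L.lev k + d) ∧ D.L.J (D.L.lev k + d) ≤ k + B ∧ D.L.J (D.L.lev k + d) < D.N
  · rw [if_pos h]
    have h1 : S3.At' R p B d k = {D.L.J (D.L.lev k + d)} := by
      refine Finset.Subset.antisymm (At'_sub H hk) ?_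
      intro i hi
      rw [Finset.mem_singleton] at hi
      unfold S3.At'
      rw [Finset.mem_filter, Finset.mem_range, H.N, hi]
      exact ⟨by omega, (at_iff H hk).2 ⟨rfl, h⟩⟩
    rw [h1, Finset.sum_singleton]
  · rw [if_neg h]
    have h1 : S3.At' R p B d k = ∅ := by
      refine Finset.eq_empty_of_forall_notMem fun i hi => ?_
      have h2 := (at_iff H hk).1 (Finset.mem_filter.1 hi).2
      obtain ⟨h3, h4⟩ := h2
      subst h3
      exact h h4
    rw [h1, Finset.sum_empty]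

theorem sum_at_le {B d k : ℕ} (hk : k ≤ D.N) (g : ℕ → ℝ) (hg : ∀ i, 0 ≤ g i) :
    ∑ i ∈ S3.At' R p B d k, g i ≤ g (D.L.J (D.L.lev k + d)) := by
  classical
  rw [sum_at H hk]
  split_ifs
  · exact le_rfl
  · exact hg _

/-- **the pairs `(k, i)` are labels `(a, r)`**, `k = J a - r`, `i = J (a + d)`, `r ≤ B` -/
theorem sum_pair {B d A : ℕ} (S : Finset ℕ) (hS : ∀ k ∈ S, k ≤ D.N) (hA : ∀ k ∈ S, D.L.lev k < A) (g : ℕ → ℕ → ℝ) :
    ∑ k ∈ S, ∑ i ∈ S3.At' R p B d k, g k i = ∑ x ∈ range A ×ˢ range (B + 1),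
      if D.L.J x.1 - x.2 ∈ S ∧ beg D.L x.1 + x.2 ≤ D.L.J x.1 ∧ D.L.J x.1 - x.2 < D.L.J (x.1 + d) ∧
        D.L.J (x.1 + d) ≤ D.L.J x.1 - x.2 + B ∧ D.L.J (x.1 + d) < D.N then
        g (D.L.J x.1 - x.2) (D.L.J (x.1 + d)) else 0 := by
  classical
  set S' := S.filter fun k => D.L.J (D.L.lev k + d) ≤ k + B with hS'
  have h0 : ∑ k ∈ S, ∑ i ∈ S3.At' R p B d k, g k i = ∑ k ∈ S', ∑ i ∈ S3.At' R p B d k, g k i := by
    symm
    refine Finset.sum_subset (Finset.filter_subset _ _) fun k hk hk' => ?_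
    rw [sum_at H (hS k hk), if_neg]
    intro h
    exact hk' (Finset.mem_filter.2 ⟨hk, h.2.1⟩)
  have h1 : ∑ k ∈ S', ∑ i ∈ S3.At' R p B d k, g k i = ∑ k ∈ S', if k < D.L.J (D.L.lev k + d) ∧
      D.L.J (D.L.lev k + d) ≤ k + B ∧ D.L.J (D.L.lev k + d) < D.N then g k (D.L.J (D.L.lev k + d)) else 0 :=
    Finset.sum_congr rfl fun k hk => sum_at H (hS k (Finset.mem_filter.1 hk).1) _
  rw [h0, h1, sum_labE D.L S' (range A ×ˢ range (B + 1)) (fun k hk => ?_)]
  · refine Finset.sum_congr rfl fun x _ => ?_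
    by_cases hb : beg D.L x.1 + x.2 ≤ D.L.J x.1
    · rw [lev_sub D.L hb]
      by_cases h2 : D.L.J x.1 - x.2 ∈ S ∧ beg D.L x.1 + x.2 ≤ D.L.J x.1 ∧ D.L.J x.1 - x.2 < D.L.J (x.1 + d) ∧
        D.L.J (x.1 + d) ≤ D.L.J x.1 - x.2 + B ∧ D.L.J (x.1 + d) < D.N
      · have h3 : D.L.J x.1 - x.2 ∈ S' := by
          rw [hS', Finset.mem_filter, lev_sub D.L hb]
          exact ⟨h2.1, h2.2.2.2.1⟩
        rw [if_pos ⟨h3, hb⟩, if_pos h2.2.2, if_pos h2]
      · rw [if_neg h2]
        split_ifs with h3 h4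
        · exfalso
          exact h2 ⟨(Finset.mem_filter.1 h3.1).1, hb, h4⟩
        · rfl
        · rfl
    · rw [if_neg (fun h => hb h.2), if_neg (fun h => hb h.2.1)]
  · have h2 := Finset.mem_filter.1 hk
    have h3 : D.L.J (D.L.lev k) ≤ D.L.J (D.L.lev k + d) := D.L.J_mono.monotone (Nat.le_add_right _ _)
    rw [Finset.mem_product, Finset.mem_range, Finset.mem_range]
    exact ⟨hA k h2.1, by have := h2.2; show D.L.J (D.L.lev k) - k < B + 1; omega⟩

/-- the level of the run is the level of the path -/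
theorem lv_eq {k : ℕ} (hk : k ≤ D.N) : S3.lv R k = D.L.lev k := by
  unfold S3.lv
  rw [H.a, H.m, D.la_eq hk]
  exact Nat.mul_div_cancel_left _ D.m1

end run

end Vale.Agent.P106.U.H61.Reg
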