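import Vale.Agent.P127.U.H404.Act
import Vale.Agent.P127.Stk.CLaw

/-!
# P106 / U / H61 : transfer of activity (note 17040 (1b), TEXT S1 (7))

* `gs_transfer` : `P(atom of X given Z ≥ e^{-c/2}) ≤ P(atom of X given Z₀ ≥ e^{-c}) + (2/c)(H(X|Z₀) - H(X|Z) + log 2)`, `Z₀ = f(Z)`.
* `cost_sum` : along a word of blocks `X_0, X_1, ..` with past `T_i = (X_0, .., X_{i-1})`, time steps `i ∈ A` and other steps,
  `∑_{i ∈ A} (H(X_i | L, S_i) - H(X_i | L, T_i)) ≤ ∑_{i ∉ A} H(X_i | L, T_i)` where `S_i` = the time blocks of the past.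
* `act_transfer` : the sum of the probabilities of the heavy atoms along the word.
-/

set_option autoImplicit false

namespace Vale.Agent.P106.U.KL

open Finset Vale.Agent.P127 Vale.Agent.P127.Stk Vale.Agent.P127.U Vale.Agent.P127.U.Nonat Vale.Agent.P127.U.Act

variable {Ω : Type} [Fintype Ω] {S T V : Type*}

/-- entropy as the mean of the surprisal -/
theorem hc_ex_cp (P : Law Ω) (X : Ω → S) (Z : Ω → T) : hc P X Z = P.ex (fun ω => -Real.log (cp P X Z ω)) := by
  unfold hc Law.H
  rw [← P.ex_sub]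
  refine P.ex_congr fun ω hω => ?_
  have h1 := P.pr_pos Z hω
  have h2 := P.pr_pos (fun ω => (X ω, Z ω)) hω
  unfold cp
  rw [Real.log_div h2.ne' h1.ne']
  ring

theorem cp_pos (P : Law Ω) (X : Ω → S) (Z : Ω → T) {ω : Ω} (hω : 0 < P.w ω) : 0 < cp P X Z ω :=
  div_pos (P.pr_pos (fun ω => (X ω, Z ω)) hω) (P.pr_pos Z hω)

/-- equivalent pasts -/
theorem cp_congr (P : Law Ω) (X : Ω → S) {Z : Ω → T} {Y : Ω → V} (h : Fn P Z Y) (h' : Fn P Y Z) {ω : Ω}
    (hω : 0 < P.w ω) :
    cp P X Z ω = cp P X Y ω := by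
  unfold cp
  rw [claw_pr_congr P h h' hω, claw_pr_congr P (X := fun ω => (X ω, Z ω)) (Y := fun ω => (X ω, Y ω)) ?_ ?_ hω]
  · intro a b ha hb e
    simp only [Prod.mk.injEq] at e ⊢
    exact ⟨e.1, h a b ha hb e.2⟩
  · intro a b ha hb e
    simp only [Prod.mk.injEq] at e ⊢
    exact ⟨e.1, h' a b ha hb e.2⟩

/-- **transfer of non-atomicity to a finer past** -/
theorem gs_transfer (P : Law Ω) (X : Ω → S) (Z : Ω → T) (Z₀ : Ω → V) (hZ : Fn P Z₀ Z) {c : ℝ} (hc0 : 0 < c) :
    P.pr (gs P X Z (c / 2)) false ≤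
      P.pr (gs P X Z₀ c) false + 2 / c * (hc P X Z₀ - hc P X Z + Real.log 2) := by
  classical
  set Y : Ω → T × V := fun ω => (Z ω, Z₀ ω) with hY
  have f1 : Fn P Y Z := fun a b ha hb e => by
    simp only [hY, Prod.mk.injEq]
    exact ⟨e, hZ a b ha hb e⟩
  have f2 : Fn P Z Y := fun a b _ _ e => congrArg Prod.fst e
  have hcp : ∀ ω, 0 < P.w ω → cp P X Z ω = cp P X Y ω := fun ω hω => cp_congr P X f2 f1 hω
  set p0 : S → V → ℝ := fun x v => P.pr (fun ω => (X ω, Z₀ ω)) (x, v) / P.pr Z₀ v with hp0
  set p1 : S → T × V → ℝ := fun x y => P.pr (fun ω => (X ω, Y ω)) (x, y) / P.pr Y y with hp1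
  obtain ⟨B, hB⟩ : ∃ B : S → T × V → Prop, ∀ x y, B x y ↔ (p0 x y.2 < Real.exp (-c) ∧ Real.exp (-(c / 2)) ≤ p1 x y) :=
    ⟨_, fun _ _ => Iff.rfl⟩
  set q : S → T × V → ℝ := fun x y => 1 / 2 * (p0 x y.2 * (if B x y then Real.exp (c / 2) else 1)) with hq
  have p0nn : ∀ x v, 0 ≤ p0 x v := fun x v => div_nonneg (P.pr_nonneg _ _) (P.pr_nonneg _ _)
  have p1nn : ∀ x y, 0 ≤ p1 x y := fun x y => div_nonneg (P.pr_nonneg _ _) (P.pr_nonneg _ _)
  have sum0 : ∀ (v : V) (F : Finset S), ∑ x ∈ F, p0 x v ≤ 1 := fun v F => by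
    rw [hp0]
    simp only
    rw [← Finset.sum_div]
    exact div_le_one_of_le₀ (P.sum_pr_pair_le X Z₀ v F) (P.pr_nonneg _ _)
  have sum1 : ∀ (y : T × V) (F : Finset S), ∑ x ∈ F, p1 x y ≤ 1 := fun y F => by
    rw [hp1]
    simp only
    rw [← Finset.sum_div]
    exact div_le_one_of_le₀ (P.sum_pr_pair_le X Y y F) (P.pr_nonneg _ _)
  have hgib := P.gibbs_cond X Y q (fun x y => by
      refine mul_nonneg (by norm_num) (mul_nonneg (p0nn _ _) ?_)
      split_ifs
      · exact (Real.exp_pos _).le
      · exact zero_le_one) ?_ ?_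
  · -- conclusion
    have h1 : P.ex (fun ω => -Real.log (q (X ω) (Y ω))) =
        Real.log 2 + hc P X Z₀ - c / 2 * P.ex (fun ω => if B (X ω) (Y ω) then (1 : ℝ) else 0) := by
      rw [hc_ex_cp P X Z₀, ← P.ex_const (Real.log 2), ← P.ex_add, ← P.ex_const_mul, ← P.ex_sub]
      refine P.ex_congr fun ω hω => ?_
      have g1 : p0 (X ω) (Z₀ ω) = cp P X Z₀ ω := rfl
      have g2 := cp_pos P X Z₀ hω
      show -Real.log (1 / 2 * (p0 (X ω) (Z₀ ω) * (if B (X ω) (Y ω) then Real.exp (c / 2) else 1))) = _
      rw [g1]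
      split_ifs with hb
      · rw [Real.log_mul (by norm_num) (by positivity), Real.log_mul g2.ne' (Real.exp_pos _).ne', Real.log_exp,
          one_div, Real.log_inv]
        ring
      · rw [mul_one, Real.log_mul (by norm_num) g2.ne', one_div, Real.log_inv]
        ring
    have h2 : P.pr (gs P X Z (c / 2)) false ≤ P.pr (gs P X Z₀ c) false +
        P.ex (fun ω => if B (X ω) (Y ω) then (1 : ℝ) else 0) := by
      have e1 : ∀ g : Ω → Bool, P.pr g false = P.ex (fun ω => if g ω = false then (1 : ℝ) else 0) := fun g => by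
        unfold Law.ex Law.pr
        rw [Finset.sum_filter]
        refine Finset.sum_congr rfl fun ω _ => ?_
        by_cases hg : g ω = false <;> simp [hg]
      rw [e1, e1, ← P.ex_add]
      refine P.ex_mono fun ω hω => ?_
      by_cases h3 : gs P X Z (c / 2) ω = false
      · rw [if_pos h3]
        rw [gs_false, hcp ω hω] at h3
        by_cases h4 : gs P X Z₀ c ω = false
        · rw [if_pos h4]
          split_ifs <;> norm_num
        · rw [if_neg h4, if_pos, zero_add]
          have h5 : gs P X Z₀ c ω = true := by simpa using h4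
          exact (hB _ _).2 ⟨gs_true.1 h5, h3⟩
      · rw [if_neg h3]
        split_ifs <;> norm_num
    have h3 : hc P X Y = hc P X Z := by
      rw [hc_ex_cp, hc_ex_cp]
      exact P.ex_congr fun ω hω => by rw [hcp ω hω]
    have h4 : hc P X Y ≤ P.ex (fun ω => -Real.log (q (X ω) (Y ω))) := hgib
    rw [h3, h1] at h4
    set b := P.ex (fun ω => if B (X ω) (Y ω) then (1 : ℝ) else 0)
    have h5 : b ≤ 2 / c * (hc P X Z₀ - hc P X Z + Real.log 2) := by
      rw [div_mul_eq_mul_div, le_div_iff₀ hc0]
      linarith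
    linarith
  · -- sub-probability
    intro y F
    have k1 : ∑ x ∈ F, q x y ≤ 1 / 2 * (∑ x ∈ F, p0 x y.2 +
        ∑ x ∈ F, if B x y then Real.exp (-(c / 2)) else 0) := by
      rw [← Finset.sum_add_distrib, Finset.mul_sum]
      refine Finset.sum_le_sum fun x _ => ?_
      refine mul_le_mul_of_nonneg_left ?_ (by norm_num)
      split_ifs with hb
      · have : p0 x y.2 * Real.exp (c / 2) ≤ Real.exp (-c) * Real.exp (c / 2) :=
          mul_le_mul_of_nonneg_right ((hB _ _).1 hb).1.le (Real.exp_pos _).le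
        rw [← Real.exp_add] at this
        have e : -c + c / 2 = -(c / 2) := by ring
        rw [e] at this
        have := p0nn x y.2
        linarith
      · rw [mul_one, add_zero]
    have k2 : (∑ x ∈ F, if B x y then Real.exp (-(c / 2)) else 0) ≤ ∑ x ∈ F, p1 x y := by
      refine Finset.sum_le_sum fun x _ => ?_
      split_ifs with hb
      · exact ((hB _ _).1 hb).2
      · exact p1nn x y
    have k3 := sum0 y.2 F
    have k4 := sum1 y F
    linarith
  · intro ω hω
    refine mul_pos (by norm_num) (mul_pos (cp_pos P X Z₀ hω) ?_)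
    split_ifs
    · exact Real.exp_pos _
    · exact one_pos

/-- **word** : `T i` past, `X i` block of the step `i`, `A i` : time step, `S i` the time blocks of the past -/
structure Wd (P : Law Ω) (n : ℕ) {τ σ υ : ℕ → Type*} (T : (i : ℕ) → Ω → τ i) (X : (i : ℕ) → Ω → σ i) (A : ℕ → Prop)
    (S : (i : ℕ) → Ω → υ i) : Prop where
  t : ∀ i < n, Fn P (T (i + 1)) (fun ω => (T i ω, X i ω))
  tX : ∀ i < n, Fn P (X i) (T (i + 1))
  tT : ∀ i < n, Fn P (T i) (T (i + 1))
  s : ∀ i < n, A i → Fn P (S (i + 1)) (fun ω => (S i ω, X i ω))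
  sX : ∀ i < n, A i → Fn P (X i) (S (i + 1))
  sS : ∀ i < n, Fn P (S i) (S (i + 1))
  sB : ∀ i < n, ¬ A i → Fn P (S (i + 1)) (S i)
  s0 : Fn P (S 0) (T 0)

theorem Fn_trans {P : Law Ω} {U' : Type*} {X : Ω → S} {Y : Ω → T} {Z : Ω → U'} (h : Fn P X Y) (h' : Fn P Y Z) :
    Fn P X Z := fun a b ha hb e => h a b ha hb (h' a b ha hb e)

theorem Fn_pair {P : Law Ω} {U' : Type*} {X : Ω → S} {Y : Ω → T} {Z : Ω → U'} (h : Fn P X Z) (h' : Fn P Y Z) :
    Fn P (fun ω => (X ω, Y ω)) Z := fun a b ha hb e => Prod.ext (h a b ha hb e) (h' a b ha hb e)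

namespace Wd

variable {P : Law Ω} {n : ℕ} {τ σ υ : ℕ → Type*} {T : (i : ℕ) → Ω → τ i} {X : (i : ℕ) → Ω → σ i} {A : ℕ → Prop}
  {S : (i : ℕ) → Ω → υ i}

theorem mono (h : Wd P n T X A S) {m : ℕ} (hm : m ≤ n) : Wd P m T X A S :=
  ⟨fun i hi => h.t i (by omega), fun i hi => h.tX i (by omega), fun i hi => h.tT i (by omega),
    fun i hi => h.s i (by omega), fun i hi => h.sX i (by omega), fun i hi => h.sS i (by omega),
    fun i hi => h.sB i (by omega), h.s0⟩

theorem t0 (h : Wd P n T X A S) : ∀ i ≤ n, Fn P (T 0) (T i) := by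
  intro i
  induction i with
  | zero => intro _ a b _ _ e; exact e
  | succ i ih => intro hi; exact Fn_trans (ih (by omega)) (h.tT i (by omega))

theorem s00 (h : Wd P n T X A S) : ∀ i ≤ n, Fn P (S 0) (S i) := by
  intro i
  induction i with
  | zero => intro _ a b _ _ e; exact e
  | succ i ih => intro hi; exact Fn_trans (ih (by omega)) (h.sS i (by omega))

/-- `S i` is a function of `T i` -/
theorem st (h : Wd P n T X A S) : ∀ i ≤ n, Fn P (S i) (T i) := by
  classical
  intro i
  induction i with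
  | zero => intro _; exact h.s0
  | succ i ih =>
    intro hi
    have h1 : Fn P (S i) (T (i + 1)) := Fn_trans (ih (by omega)) (h.tT i (by omega))
    by_cases hA : A i
    · exact Fn_trans (h.s i (by omega) hA) (Fn_pair h1 (h.tX i (by omega)))
    · exact Fn_trans (h.sB i (by omega) hA) h1

theorem chT (h : Wd P n T X A S) : hc P (T n) (T 0) = ∑ i ∈ Finset.range n, hc P (X i) (T i) := by
  have key : ∀ m ≤ n, hc P (T m) (T 0) = ∑ i ∈ Finset.range m, hc P (X i) (T i) := by
    intro m
    induction m with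
    | zero =>
      intro _
      rw [Finset.range_zero, Finset.sum_empty]
      exact hc_zero P fun a b _ _ e => e
    | succ m ih =>
      intro hm
      rw [Finset.sum_range_succ, ← ih (by omega)]
      have e1 : hc P (T (m + 1)) (T 0) = hc P (fun ω => (T m ω, X m ω)) (T 0) := by
        refine hc_congr P ?_ ?_ (fun a b _ _ e => e) (fun a b _ _ e => e)
        · intro a b ha hb e
          simp only [Prod.mk.injEq] at e
          exact h.t m (by omega) a b ha hb (Prod.ext e.1.1 e.1.2)
        · intro a b ha hb e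
          simp only [Prod.mk.injEq] at e ⊢
          exact ⟨h.tT m (by omega) a b ha hb e.1, h.tX m (by omega) a b ha hb e.1⟩
      rw [e1, hc_pair]
      congr 1
      refine hc_congr P (fun a b _ _ e => congrArg Prod.fst e) (fun a b _ _ e => congrArg Prod.fst e) ?_ ?_
      · intro a b ha hb e
        simp only [Prod.mk.injEq]
        exact ⟨e, h.t0 m (by omega) a b ha hb e⟩
      · intro a b ha hb e
        simp only [Prod.mk.injEq] at e
        exact e.1
  exact key n le_rfl

open Classical in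
theorem chS (h : Wd P n T X A S) :
    hc P (S n) (S 0) = ∑ i ∈ (Finset.range n).filter A, hc P (X i) (S i) := by
  have key : ∀ m ≤ n, hc P (S m) (S 0) = ∑ i ∈ (Finset.range m).filter A, hc P (X i) (S i) := by
    intro m
    induction m with
    | zero =>
      intro _
      rw [Finset.range_zero, Finset.filter_empty, Finset.sum_empty]
      exact hc_zero P fun a b _ _ e => e
    | succ m ih =>
      intro hm
      rw [Finset.sum_filter, Finset.sum_range_succ, ← Finset.sum_filter, ← ih (by omega)]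
      by_cases hA : A m
      · rw [if_pos hA]
        have e1 : hc P (S (m + 1)) (S 0) = hc P (fun ω => (S m ω, X m ω)) (S 0) := by
          refine hc_congr P ?_ ?_ (fun a b _ _ e => e) (fun a b _ _ e => e)
          · intro a b ha hb e
            simp only [Prod.mk.injEq] at e
            exact h.s m (by omega) hA a b ha hb (Prod.ext e.1.1 e.1.2)
          · intro a b ha hb e
            simp only [Prod.mk.injEq] at e ⊢
            exact ⟨h.sS m (by omega) a b ha hb e.1, h.sX m (by omega) hA a b ha hb e.1⟩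
        rw [e1, hc_pair]
        congr 1
        refine hc_congr P (fun a b _ _ e => congrArg Prod.fst e) (fun a b _ _ e => congrArg Prod.fst e) ?_ ?_
        · intro a b ha hb e
          simp only [Prod.mk.injEq]
          exact ⟨e, h.s00 m (by omega) a b ha hb e⟩
        · intro a b ha hb e
          simp only [Prod.mk.injEq] at e
          exact e.1
      · rw [if_neg hA, add_zero]
        refine hc_congr P ?_ ?_ (fun a b _ _ e => e) (fun a b _ _ e => e)
        · intro a b ha hb e
          simp only [Prod.mk.injEq] at e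
          exact h.sB m (by omega) hA a b ha hb e.1
        · intro a b ha hb e
          simp only [Prod.mk.injEq] at e
          exact h.sS m (by omega) a b ha hb e.1
  exact key n le_rfl

open Classical in
/-- **the information of the frames about the times is paid by the cost of the frame steps** -/
theorem cost (h : Wd P n T X A S) :
    ∑ i ∈ (Finset.range n).filter A, (hc P (X i) (S i) - hc P (X i) (T i)) ≤
      ∑ i ∈ (Finset.range n).filter (fun i => ¬ A i), hc P (X i) (T i) + hc P (T 0) (S 0) := by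
  rw [Finset.sum_sub_distrib, ← h.chS]
  have h1 := h.chT
  rw [← Finset.sum_filter_add_sum_filter_not (Finset.range n) A] at h1
  have h2 : hc P (S n) (S 0) ≤ hc P (T n) (S 0) := by
    refine hc_mono_left P fun a b ha hb e => ?_
    simp only [Prod.mk.injEq] at e
    exact h.st n le_rfl a b ha hb e.1
  have h3 : hc P (T n) (S 0) ≤ hc P (T 0) (S 0) + hc P (T n) (fun ω => (T 0 ω, S 0 ω)) := hc_le_add P _ _ _
  have h4 : hc P (T n) (fun ω => (T 0 ω, S 0 ω)) ≤ hc P (T n) (T 0) :=
    hc_mono_right P _ fun a b _ _ e => congrArg Prod.fst e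
  linarith

open Classical in
/-- **transfer of activity along a word** -/
theorem act (h : Wd P n T X A S) {c : ℝ} (hc0 : 0 < c) :
    ∑ i ∈ (Finset.range n).filter A, P.pr (gs P (X i) (T i) (c / 2)) false ≤
      ∑ i ∈ (Finset.range n).filter A, P.pr (gs P (X i) (S i) c) false +
        2 / c * (∑ i ∈ (Finset.range n).filter (fun i => ¬ A i), hc P (X i) (T i) + hc P (T 0) (S 0) +
          ((Finset.range n).filter A).card * Real.log 2) := by
  have h1 : ∀ i ∈ (Finset.range n).filter A, P.pr (gs P (X i) (T i) (c / 2)) false ≤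
      P.pr (gs P (X i) (S i) c) false + 2 / c * (hc P (X i) (S i) - hc P (X i) (T i) + Real.log 2) := by
    intro i hi
    rw [Finset.mem_filter, Finset.mem_range] at hi
    exact gs_transfer P (X i) (T i) (S i) (h.st i (by omega)) hc0
  have h2 := Finset.sum_le_sum h1
  rw [Finset.sum_add_distrib, ← Finset.mul_sum, Finset.sum_add_distrib, Finset.sum_const, nsmul_eq_mul] at h2
  have h3 := h.cost
  have h4 : (0 : ℝ) ≤ 2 / c := by positivity
  have h5 := mul_le_mul_of_nonneg_left (add_le_add_left h3 (((Finset.range n).filter A).card * Real.log 2)) h4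
  linarith

open Classical in
/-- the collision probabilities of the time blocks given the whole past -/
theorem colp (h : Wd P n T X A S) {c : ℝ} (hc0 : 0 < c) :
    ∑ i ∈ (Finset.range n).filter A, P.ex (cp P (X i) (T i)) ≤
      ∑ i ∈ (Finset.range n).filter A, P.pr (gs P (X i) (S i) c) false +
        2 / c * (∑ i ∈ (Finset.range n).filter (fun i => ¬ A i), hc P (X i) (T i) + hc P (T 0) (S 0) +
          ((Finset.range n).filter A).card * Real.log 2) +
        ((Finset.range n).filter A).card * Real.exp (-(c / 2)) := by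
  have h1 : ∀ i ∈ (Finset.range n).filter A, P.ex (cp P (X i) (T i)) ≤
      P.pr (gs P (X i) (T i) (c / 2)) false + Real.exp (-(c / 2)) := fun i _ => colp_le P (X i) (T i) (c / 2)
  have h2 := Finset.sum_le_sum h1
  rw [Finset.sum_add_distrib, Finset.sum_const, nsmul_eq_mul] at h2
  have h3 := h.act hc0
  linarith

end Wd

end Vale.Agent.P106.U.KL
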