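import Vale.Agent.P106.U.H61.PLem
import Vale.Agent.P106.U.H712.Psi
import Vale.Agent.P106.U.H122.V12

/-!
# P106 / U / H61 : `PSum` from the rows (helper61)

* `cst_le` : 61's cost from the costs of the rows;  `mean_cstz` : the sum over the places of 712's `cstz` is a mean.
* **`pSum_of`** : `RowOff → RowOT FS FJ → RowS FS → RowV2 → RowP1 → RowJun FJ → PSum`.
-/

set_option autoImplicit false

namespace Vale.Agent.P106.U.H61.PS

open Finset Vale.Agent.P127 Vale.Agent.P127.Stk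
open Vale.Agent.P127.U.CellD (q2 q2_pos q2_le)
open Vale.Agent.P106.U Vale.Agent.P106.U.H565
open Vale.Agent.P106.U.H712.Fam (Win Vl Pl)
open Vale.Agent.P106.U.H61.Ext2
open Vale.Agent.P106.U.S3 (Run Pf)

section pt

variable {Ω : Type} [Fintype Ω] {τ υ π : Type} {R : Run Ω τ υ} {n : Run.Num} {B bS bV : ℕ} {F : Pf R π} {Vs Xs : Finset ℕ}
  {μ : ℕ} {K' : ℝ} {o : Fin 7 → ℝ} {o' : ℕ → ℝ}

/-- the row (V1) from the row (V2) -/
theorem cV1_le (hK : 0 < K') (d : ℕ) : cV1 R n B bV F Vs Xs μ K' o o' d ≤ cV2 R n B bV F Vs Xs μ K' o o' d :=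
  div_le_div_of_nonneg_right (H122.v1_of_v2 R n B bV F Vs Xs μ o o' d) (F2b_pos hK).le

/-- **61's cost from the costs of the rows** -/
theorem cst_le (hK : 0 < K') : cst R n B bS bV F Vs Xs μ K' o o' ≤
    H101.Off.o4 R n B bS bV F (H101.Off.allV R) ∅ μ K' o o' + (cJun R n B F Vs Xs μ K' o o' +
      (∑ d ∈ range (B + 1), cS R n B bS Vs Xs μ K' o d + (∑ d ∈ range (B + 1), cP1 R n B bV F Vs Xs μ K' o o' d +
        2 * ∑ d ∈ range (B + 1), cV2 R n B bV F Vs Xs μ K' o o' d))) := by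
  have h1 := H101.Off.o4_all R n B bS bV F Vs Xs μ o o' hK
  have h2 : ∑ d ∈ range (B + 1), cV1 R n B bV F Vs Xs μ K' o o' d ≤ ∑ d ∈ range (B + 1), cV2 R n B bV F Vs Xs μ K' o o' d :=
    Finset.sum_le_sum fun d _ => cV1_le hK d
  have h3 : cst R n B bS bV F Vs Xs μ K' o o' = H101.Off.o4 R n B bS bV F Vs Xs μ K' o o' + (cJun R n B F Vs Xs μ K' o o' +
      (∑ d ∈ range (B + 1), cS R n B bS Vs Xs μ K' o d + (∑ d ∈ range (B + 1), cP1 R n B bV F Vs Xs μ K' o o' d +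
        (∑ d ∈ range (B + 1), cV1 R n B bV F Vs Xs μ K' o o' d + ∑ d ∈ range (B + 1), cV2 R n B bV F Vs Xs μ K' o o' d)))) := by
    unfold Ext2.cst H101.Off.o4
    simp only [Finset.sum_add_distrib]
    ring
  rw [h3]
  linarith

end pt

variable {σ : S5.Cst} {cc : ℝ} {J M Md : ℕ} {p : Par} {X0 R0 h0 : ℕ} {Ω : Type} [Fintype Ω]

/-- the sum over the places of `cstz` is a mean -/
theorem mean_cstz (x : Ctx σ cc J M Md p X0 R0 h0 Ω) (oo : Oo) (T μ j : ℕ) (o : Fin 7 → ℝ) (o' : ℕ → ℝ) :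
    ∑ b ∈ range (x.nB + 1 - p.Tc * p.s), ∑ kk ∈ range T,
      x.Q1.ex (fun ω => (x.win oo 0).cstz p.fp μ j o o' b kk (((x.win oo 0).at' b).Z kk ω)) =
    x.mean oo T (fun w k z => if p.k1 ≤ k then w.cst p.fp μ (2 ^ j) o o' k z else 0) := by
  classical
  unfold Ctx.mean Ctx.bs
  rw [Finset.sum_filter]
  refine Finset.sum_congr rfl fun b _ => ?_
  have e1 : ∀ (kk : ℕ) (z : Vl), (x.win oo 0).cstz p.fp μ j o o' b kk z =
      if H712.Fam.Win.good kk z ∧ p.k1 ≤ kk ∧ 8 * p.B < b then (x.win oo b).cst p.fp μ (2 ^ j) o o' kk z else 0 := by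
    intro kk z
    unfold H712.Fam.Win.cstz
    exact if_congr Iff.rfl rfl rfl
  split_ifs with hb
  · unfold H712.Fam.Win.av
    refine Finset.sum_congr rfl fun kk _ => ?_
    refine congrArg x.Q1.ex (funext fun ω => ?_)
    rw [e1]
    show (if H712.Fam.Win.good kk ((x.win oo b).Z kk ω) ∧ p.k1 ≤ kk ∧ 8 * p.B < b then
      (x.win oo b).cst p.fp μ (2 ^ j) o o' kk ((x.win oo b).Z kk ω) else 0) = _
    by_cases hg : H712.Fam.Win.good kk ((x.win oo b).Z kk ω)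
    · by_cases hk : p.k1 ≤ kk
      · rw [if_pos ⟨hg, hk, hb⟩, if_pos hg]
        exact (if_pos hk).symm
      · rw [if_neg (fun h => hk h.2.1), if_pos hg]
        exact (if_neg hk).symm
    · rw [if_neg (fun h => hg h.1), if_neg hg]
  · refine Finset.sum_eq_zero fun kk _ => ?_
    have e2 : (fun ω => (x.win oo 0).cstz p.fp μ j o o' b kk (((x.win oo 0).at' b).Z kk ω)) = fun _ => (0 : ℝ) := by
      funext ω
      rw [e1, if_neg (fun h => hb h.2.2)]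
    rw [e2, Law.ex_const]

theorem mean_smul (x : Ctx σ cc J M Md p X0 R0 h0 Ω) {oo : Oo} {T : ℕ} {f : Win Ω → ℕ → Vl → ℝ} :
    x.mean oo T (fun w k z => 2 * f w k z) = 2 * x.mean oo T f := by
  have h := x.mean_add (oo := oo) (T := T) (f := f) (g := f)
  rw [two_mul, ← h]
  congr 1
  funext w k z
  ring

/-- **one pair `(μ, j)`** -/
theorem mean_cst (x : Ctx σ cc J M Md p X0 R0 h0 Ω) {oo : Oo} {μ j : ℕ} {o : Fin 7 → ℝ} {o' : ℕ → ℝ} (hO : Off x oo μ (2 ^ j) o o')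
    (hS : x.mean oo p.Tc (fun w k z => if p.k1 ≤ k then ∑ d ∈ range (p.B + 1), cS (w.R k z) (w.nm k z) p.B (w.bS p.fp k)
      (w.Vs p.fp k z) (w.Xs p.fp k z) μ (2 ^ j) o d else 0) ≤ x.nB * p.Tc * tgt p.B μ j)
    (hV : x.mean oo p.Tc (fun w k z => if p.k1 ≤ k then ∑ d ∈ range (p.B + 1), cV2 (w.R k z) (w.nm k z) p.B (w.bV p.fp k)
      (w.F p.fp k z) (w.Vs p.fp k z) (w.Xs p.fp k z) μ (2 ^ j) o o' d else 0) ≤ x.nB * p.Tc * tgt p.B μ j)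
    (hP : x.mean oo p.Tc (fun w k z => if p.k1 ≤ k then ∑ d ∈ range (p.B + 1), cP1 (w.R k z) (w.nm k z) p.B (w.bV p.fp k)
      (w.F p.fp k z) (w.Vs p.fp k z) (w.Xs p.fp k z) μ (2 ^ j) o o' d else 0) ≤ x.nB * p.Tc * tgt p.B μ j)
    (hJ : x.mean oo p.Tc (fun w k z => if p.k1 ≤ k then cJun (w.R k z) (w.nm k z) p.B
      (w.F p.fp k z) (w.Vs p.fp k z) (w.Xs p.fp k z) μ (2 ^ j) o o' else 0) ≤ x.nB * p.Tc * tgt p.B μ j) :
    x.mean oo p.Tc (fun w k z => if p.k1 ≤ k then w.cst p.fp μ (2 ^ j) o o' k z else 0) ≤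
      x.nB * p.Tc * (605 * tgt p.B μ j) := by
  have hK : (0 : ℝ) < 2 ^ j := by positivity
  have h1 : x.mean oo p.Tc (fun w k z => if p.k1 ≤ k then w.cst p.fp μ (2 ^ j) o o' k z else 0) ≤
      x.mean oo p.Tc (fun w k z => H101.Off.o4 (w.R k z) (w.nm k z) p.B (w.bS p.fp k) (w.bV p.fp k) (w.F p.fp k z)
        (H101.Off.allV (w.R k z)) ∅ μ (2 ^ j) o o' +
      ((if p.k1 ≤ k then cJun (w.R k z) (w.nm k z) p.B (w.F p.fp k z) (w.Vs p.fp k z) (w.Xs p.fp k z) μ (2 ^ j) o o' else 0) +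
      ((if p.k1 ≤ k then ∑ d ∈ range (p.B + 1), cS (w.R k z) (w.nm k z) p.B (w.bS p.fp k)
        (w.Vs p.fp k z) (w.Xs p.fp k z) μ (2 ^ j) o d else 0) +
      ((if p.k1 ≤ k then ∑ d ∈ range (p.B + 1), cP1 (w.R k z) (w.nm k z) p.B (w.bV p.fp k)
        (w.F p.fp k z) (w.Vs p.fp k z) (w.Xs p.fp k z) μ (2 ^ j) o o' d else 0) +
      2 * (if p.k1 ≤ k then ∑ d ∈ range (p.B + 1), cV2 (w.R k z) (w.nm k z) p.B (w.bV p.fp k)
        (w.F p.fp k z) (w.Vs p.fp k z) (w.Xs p.fp k z) μ (2 ^ j) o o' d else 0))))) := by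
    refine x.mean_mono' fun b0 _ k _ z _ _ => ?_
    by_cases hk : p.k1 ≤ k
    · simp only [if_pos hk]
      exact cst_le hK
    · simp only [if_neg hk]
      have := H101.Off.o4_nonneg ((x.win oo b0).R k z) ((x.win oo b0).nm k z) p.B ((x.win oo b0).bS p.fp k)
        ((x.win oo b0).bV p.fp k) ((x.win oo b0).F p.fp k z) (H101.Off.allV ((x.win oo b0).R k z)) ∅ μ o o' hK
      linarith
  have h2 : x.mean oo p.Tc (fun w k z => H101.Off.o4 (w.R k z) (w.nm k z) p.B (w.bS p.fp k) (w.bV p.fp k) (w.F p.fp k z)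
        (H101.Off.allV (w.R k z)) ∅ μ (2 ^ j) o o') ≤ 600 / 2 ^ j * q2 (μ / 4) * (x.nB * p.Tc) :=
    (x.mean_range (fun w k z => H101.Off.o4_nonneg _ _ _ _ _ _ _ _ _ _ _ hK) (by omega)).trans hO.avg
  rw [x.mean_add, x.mean_add, x.mean_add, x.mean_add, mean_smul] at h1
  have h3 : 600 / 2 ^ j * q2 (μ / 4) ≤ 600 * tgt p.B μ j := by
    have e1 : 600 / (2 : ℝ) ^ j = 600 * q2 j := by
      unfold q2
      rw [one_div, inv_pow, div_eq_mul_inv]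
    have h4 : q2 j * q2 (μ / 4) ≤ q2 (j / 4) * q2 (μ / 16) :=
      mul_le_mul (q2_le (Nat.div_le_self _ _)) (q2_le (by omega)) (q2_pos _).le (q2_pos _).le
    have h5 : (0 : ℝ) ≤ 1 / ((p.B : ℝ) + 1) ^ 3 := by positivity
    unfold tgt
    rw [e1]
    linarith
  have hN : (0 : ℝ) ≤ x.nB * p.Tc := by positivity
  have h6 := mul_le_mul_of_nonneg_right h3 hN
  linarith

/-- **`PSum` from the rows** -/
theorem pSum_of {FS FJ : FO} (hOff : RowOff) (hOT : RowOT FS FJ) (hS : RowS FS) (hV : RowV2) (hP : RowP1) (hJ : RowJun FJ) :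
    PSum := by
  intro σ hσ K Cψ cc J M Md c1 c2 c3 c4 c5 c6 c7 c8 c9
  have cd : Cnd K Cψ cc J M Md := ⟨c1, c2, c3, c4, c5, c6, c7, c8, c9⟩
  have hε : (0 : ℝ) < 1 / (16 * (Cψ + 1) * 605) := by positivity
  obtain ⟨mt, Bt, hT⟩ := H523.Wgt.sum_target _ hε
  obtain ⟨m0, H⟩ := (hOff σ hσ K Cψ cc J M Md cd).and ((hOT σ hσ K Cψ cc J M Md cd).and ((hS σ hσ K Cψ cc J M Md cd).and
    ((hV σ hσ K Cψ cc J M Md cd).and ((hP σ hσ K Cψ cc J M Md cd).and (hJ σ hσ K Cψ cc J M Md cd)))))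
  refine ⟨max m0 mt, fun m hm => ?_⟩
  obtain ⟨B0, H⟩ := H m ((le_max_left _ _).trans hm)
  refine ⟨max B0 Bt, fun B hB => ?_⟩
  obtain ⟨g0, H⟩ := H B ((le_max_left _ _).trans hB)
  obtain ⟨D1, H⟩ := H (max g0 1) (le_max_left _ _)
  obtain ⟨k10, H⟩ := H (max D1 (2 * B + 5)) (le_max_left _ _) 1 (B + 1) le_rfl (by omega) (by omega)
  obtain ⟨T0, H⟩ := H k10 le_rfl
  refine ⟨max g0 1, max D1 (2 * B + 5), k10, 1, (B + 1) * 1, (B + 1) * 1, le_max_right _ _, le_rfl, le_max_right _ _, by omega,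
    le_rfl, T0, fun Tc hTc => ?_⟩
  obtain ⟨X1, R1, h1, H⟩ := H Tc hTc
  refine ⟨X1, R1, h1, ?_⟩
  obtain ⟨HO, HT, HS, HV, HP, HJ⟩ := H X1 R1 h1 le_rfl le_rfl le_rfl
  intro Ω _ c hmc Rm St good thr _ e2 e3 e4 e5 e6 e7 e8 hh hX0 hR0 ht hc bt Q1 E1 x1 cn dtm HB
  obtain ⟨p, hp⟩ : ∃ p : Par, p = ⟨m, B, max g0 1, max D1 (2 * B + 5), 1, B + 1, k10, Tc⟩ := ⟨_, rfl⟩
  rw [← hp] at HO HT HS HV HP HJ
  subst hp
  obtain ⟨x, hx⟩ : ∃ x : Ctx σ cc J M Md ⟨m, B, max g0 1, max D1 (2 * B + 5), 1, B + 1, k10, Tc⟩ X1 R1 h1 Ω,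
      x = ⟨c, hmc, Rm, St, good, e2, e3, e4, e5, e6, e7, e8, hh, hX0, hR0, ht, hc, bt, Q1, E1, x1, cn, dtm, HB⟩ := ⟨_, rfl⟩
  obtain ⟨oo, fS, fJ⟩ := HT Ω x
  have hN : (0 : ℝ) ≤ x.nB * Tc := by positivity
  have hsum : 16 * (Cψ + 1) * ∑ μ ∈ Icc c.I.m B, ∑ j ∈ range (B + 1), 605 * tgt B μ j ≤ 1 := by
    have h3 := hT m B ((le_max_right _ _).trans hm) ((le_max_right _ _).trans hB) (range (B + 1)) subset_rfl
    rw [e4]
    have e9 : ∑ μ ∈ Icc m B, ∑ j ∈ range (B + 1), 605 * tgt B μ j = 605 * ∑ μ ∈ Icc m B, ∑ j ∈ range (B + 1), tgt B μ j := by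
      simp only [Finset.mul_sum]
    rw [e9]
    unfold tgt
    rw [le_div_iff₀ (by positivity)] at h3
    linarith
  have key := (x.win oo 0).psi_of (Par.fp ⟨m, B, max g0 1, max D1 (2 * B + 5), 1, B + 1, k10, Tc⟩) (K := K) (Cψ := Cψ)
    (N := x.nB * Tc) (by linarith) c2 hN (x.nB + 1 - Tc * 1) Tc (fun μ j => 605 * tgt B μ j) (fun μ j => by
      have := q2_pos (μ / 16)
      have := q2_pos (j / 4)
      unfold tgt
      positivity) (by rw [hx]; exact hsum) (fun μ hμ1 hμ2 j hj1 hj2 => by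
      have hμ3 : m ≤ μ := by
        rw [hx] at hμ1
        exact e4 ▸ hμ1
      obtain ⟨o, o', hO⟩ := HO Ω x oo μ (2 ^ j) hμ2 (by positivity)
      refine ⟨o, o', hO.o1, ?_⟩
      exact (le_of_eq (mean_cstz x oo Tc μ j o o')).trans (mean_cst x hO (HS Ω x oo fS μ hμ2 hμ3 j hj1 hj2 o o' hO)
        (HV Ω x oo trivial μ hμ2 hμ3 j hj1 hj2 o o' hO) (HP Ω x oo trivial μ hμ2 hμ3 j hj1 hj2 o o' hO)
        (HJ Ω x oo fJ μ hμ2 hμ3 j hj1 hj2 o o' hO)))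
  obtain ⟨ψ, k1, k2, k3⟩ := key
  subst hx
  refine ⟨oo.o, oo.oK, oo.oG, oo.oN, ψ, k1, k2, ?_⟩
  intro b0 kk e2' hz hkk _ hb hψ hbits hk1 hk hl μ hμ hmμ K' hK1 hK2
  exact k3 b0 kk e2' hz hkk hb hψ hbits hk1 hk hl μ hμ (by rw [← e4] at hmμ; exact hmμ) K' hK1 hK2

end Vale.Agent.P106.U.H61.PS
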