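import Vale.Agent.P106.U.H61.Strict

/-!
# P106 / U / H61 : normal form of the start from its three parts

`pNrm_of : PEv → PSlb1 → PSlb2 → PNrm`.
-/

set_option autoImplicit false

namespace Vale.Agent.P106.U.H61

open Finset Vale.Agent.P127 Vale.Agent.P127.Stk Vale.Agent.P127.U Vale.Agent.P106.W Vale.Agent.P106.K
open Vale.Agent.P106.U Vale.Agent.P106.U.H416 Vale.Agent.P106.U.H428

section fin

variable {Ω : Type} [Fintype Ω] {γ δ : Type}

theorem nex_mono {c lam N k β d d2 : ℝ} {P : Law Ω} {l : Ω → Ry} {t : Ω → ℝ} {C : Ω → γ} {L h q : ℕ} {W : Ω → Cbx}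
    (hE : NEx c lam N k β d P l t C L h q W) (hd : d ≤ d2) : NEx c lam N k β d2 P l t C L h q W := by
  have hl2 : 0 < Real.log 2 := Real.log_pos (by norm_num)
  refine ⟨hE.ok, hE.hL, hE.lb, ?_⟩
  have h1 := hE.ex
  have h2 : (β - d2) * h * Real.log 2 ≤ (β - d) * h * Real.log 2 := by
    have : β - d2 ≤ β - d := by linarith
    gcongr
  linarith

theorem SlbOk.mono {K0 K0' : ℝ} (hK : K0 ≤ K0') {r : ℕ} {S : Cbx} {h : ℕ} {W : Cbx} {l : Ry} {t : ℝ}
    (H : SlbOk K0 r S h W l t) : SlbOk K0' r S h W l t := by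
  have hp : (0 : ℝ) ≤ (1 / 2) ^ r := by positivity
  obtain ⟨σ, h1, h2, h3⟩ := H.frm
  exact ⟨H.u2, H.u1, H.α8, H.κ8, H.p1, H.v1, H.inn, σ, h1,
    fun k => (h2 k).trans (mul_le_mul_of_nonneg_right hK hp), h3.trans (mul_le_mul_of_nonneg_right hK hp)⟩

theorem prE_mn {P : Law Ω} {E F : Ω → Prop} (h : ∀ ω, E ω → F ω) : prE P E ≤ prE P F := by
  classical
  unfold prE
  refine Finset.sum_le_sum_of_subset_of_nonneg (fun ω hω => ?_) fun ω _ _ => P.nn ω
  rw [Finset.mem_filter] at hω ⊢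
  exact ⟨hω.1, h ω hω.2⟩

theorem prE_tr (P : Law Ω) : prE P (fun _ => True) = 1 := by
  have := prE_not P (fun _ : Ω => False)
  have h0 : prE P (fun _ : Ω => False) = 0 := by
    classical
    unfold prE
    rw [Finset.sum_filter]
    simp
  rw [h0, sub_zero] at this
  rw [← this]
  congr 1
  funext _
  simp

/-- a function of `(U, Z)` with `U` in a finite set -/
theorem hc_fin {A B D : Type*} (P : Law Ω) (G : Ω → A) (U : Ω → B) (Z : Ω → D) (S : Finset B)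
    (hS : ∀ ω, 0 < P.w ω → U ω ∈ S)
    (hf : ∀ ω ω', 0 < P.w ω → 0 < P.w ω' → U ω = U ω' → Z ω = Z ω' → G ω = G ω') :
    Stk.hc P G Z ≤ Real.log S.card := by
  have h1 := Stk.hc_le_add P G U Z
  have h2 : Stk.hc P G (fun ω => (U ω, Z ω)) = 0 := Stk.hc_zero P fun ω ω' p p' e => by
    simp only [Prod.mk.injEq] at e
    exact hf ω ω' p p' e.1 e.2
  have h3 := H127.hc_le_card P U Z S hS
  linarith

/-- the letter of the start -/
noncomputable def stG {M M2 : ℕ} (E : Ω → Prop) (GE : Ω → Fin M) (g : Ω → Cf) (key : Ω → Fin M2) (ω : Ω) :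
    Option (Fin M × Cf × Fin M2) := by
  classical exact if E ω then some (GE ω, g ω, key ω) else none

omit [Fintype Ω] in
theorem stG_some {M M2 : ℕ} {E : Ω → Prop} {GE : Ω → Fin M} {g : Ω → Cf} {key : Ω → Fin M2} {ω : Ω}
    {e : Fin M × Cf × Fin M2} (h : stG E GE g key ω = some e) : E ω ∧ g ω = e.2.1 ∧ key ω = e.2.2 := by
  classical
  unfold stG at h
  by_cases hE : E ω
  · rw [if_pos hE, Option.some.injEq] at h
    subst h
    exact ⟨hE, rfl, rfl⟩
  · rw [if_neg hE] at h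
    cases h

omit [Fintype Ω] in
theorem stG_E {M M2 : ℕ} {E : Ω → Prop} {GE : Ω → Fin M} {g : Ω → Cf} {key : Ω → Fin M2} {ω : Ω} (h : E ω) :
    ∃ e, stG E GE g key ω = some e := by
  classical
  unfold stG
  exact ⟨_, if_pos h⟩

theorem stG_hc {M M2 : ℕ} {P : Law Ω} {E : Ω → Prop} {GE : Ω → Fin M} {g : Ω → Cf} {key : Ω → Fin M2} {D : Type*}
    (T : Ω → Fin 2) (Z : Ω → D)
    (hf : ∀ ω ω', 0 < P.w ω → 0 < P.w ω' → E ω → E ω' → T ω = T ω' → Z ω = Z ω' → GE ω = GE ω' → g ω = g ω') :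
    Stk.hc P (stG E GE g key) Z ≤ Real.log (2 * (M * M2 + 1) : ℕ) := by
  classical
  have h1 := hc_fin P (stG E GE g key)
    (fun ω => (T ω, (if E ω then some (GE ω, key ω) else none : Option (Fin M × Fin M2)))) Z Finset.univ
    (fun _ _ => Finset.mem_univ _) (by
      intro ω ω' p p' e1 e2
      simp only [Prod.mk.injEq] at e1
      obtain ⟨e0, e1⟩ := e1
      unfold stG
      by_cases hE : E ω
      · by_cases hE' : E ω'
        · rw [if_pos hE, if_pos hE', Option.some.injEq, Prod.mk.injEq] at e1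
          rw [if_pos hE, if_pos hE', hf ω ω' p p' hE hE' e0 e2 e1.1, e1.1, e1.2]
        · rw [if_pos hE, if_neg hE'] at e1
          cases e1
      · by_cases hE' : E ω'
        · rw [if_neg hE, if_pos hE'] at e1
          cases e1
        · rw [if_neg hE, if_neg hE'])
  refine h1.trans (le_of_eq ?_)
  congr 2
  rw [Finset.card_univ, Fintype.card_prod, Fintype.card_option, Fintype.card_prod, Fintype.card_fin, Fintype.card_fin,
    Fintype.card_fin]

/-! ### the common normal -/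

omit [Fintype Ω] in
theorem nrm_lb {L h q : ℕ} {W : Cbx} {l : Ry} {t : ℝ} (H : LbOk (1 / 1000) L h W l t) (h2 : W.u2 = 1)
    (h1 : W.u1 = (1 / 2 : ℝ) ^ q) :
    |nrm W (bl h l t) 0 ^ 2 + nrm W (bl h l t) 1 ^ 2 - 1| ≤ 1 / 100 * (1 / 2 : ℝ) ^ q := by
  have hp : (0 : ℝ) < (1 / 2 : ℝ) ^ q := by positivity
  have hs : Shp (1 / 1000) 0 q W := ⟨by rw [h2, pow_zero], h1, H.α2, H.κ2⟩
  have g0 := bin_g0 hs H.inn
  have g1 := bin_g1 hs H.inn
  have hα := H.α2
  have hκ := H.κ2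
  rw [h2, mul_one] at hα hκ
  rw [nrm_eq]
  have e := nv_sq W (bl h l t)
  have a1 : |W.κ * G1 W (bl h l t)| ≤ 1 / 1000 * (1 / 1000 * (1 / 2 : ℝ) ^ q) := by
    rw [abs_mul]
    gcongr
  have a2 : |W.α * G0 W (bl h l t)| ≤ 1 / 1000 * (1 / 1000 * (1 / 2 : ℝ) ^ q) := by
    rw [abs_mul]
    gcongr
  rw [abs_le] at a1 a2 ⊢
  constructor <;> nlinarith [a1.1, a1.2, a2.1, a2.2]

/-- rounded own normal -/
noncomputable def nT (Rm h : ℕ) (W : Ω → Cbx) (l : Ω → Ry) (t : Ω → ℝ) (ω : Ω) : Fin 2 → ℤ :=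
  fl Rm (nrm (W ω) (bl h (l ω) (t ω)))

omit [Fintype Ω] in
theorem nT_mem {Rm L h q : ℕ} {W : Ω → Cbx} {l : Ω → Ry} {t : Ω → ℝ} {ω : Ω}
    (H : LbOk (1 / 1000) L h (W ω) (l ω) (t ω)) (h2 : (W ω).u2 = 1) (h1 : (W ω).u1 = (1 / 2 : ℝ) ^ q) :
    nT Rm h W l t ω ∈ Fintype.piFinset fun _ : Fin 2 => Finset.Icc (-(2 : ℤ) ^ (Rm + 1)) (2 ^ (Rm + 1)) := by
  rw [Fintype.mem_piFinset]
  intro k
  have e := nrm_lb H h2 h1
  have hq : (1 / 2 : ℝ) ^ q ≤ 1 := pow_le_one₀ (by norm_num) (by norm_num)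
  have hk : |nrm (W ω) (bl h (l ω) (t ω)) k| ≤ 2 := by
    have s0 := sq_nonneg (nrm (W ω) (bl h (l ω) (t ω)) 0)
    have s1 := sq_nonneg (nrm (W ω) (bl h (l ω) (t ω)) 1)
    rw [abs_le] at e
    refine abs_le_of_sq_le_sq ?_ (by norm_num)
    fin_cases k
    · show nrm (W ω) (bl h (l ω) (t ω)) 0 ^ 2 ≤ 2 ^ 2
      linarith [e.2]
    · show nrm (W ω) (bl h (l ω) (t ω)) 1 ^ 2 ≤ 2 ^ 2
      linarith [e.2]
  rw [abs_le] at hk
  have hp : (0 : ℝ) < 2 ^ Rm := by positivity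
  rw [Finset.mem_Icc]
  constructor
  · refine Int.le_floor.2 ?_
    push_cast
    rw [pow_succ]
    nlinarith [hk.1]
  · have h3 : ((⌊(2 : ℝ) ^ Rm * nrm (W ω) (bl h (l ω) (t ω)) k⌋ : ℤ) : ℝ) ≤ ((2 ^ (Rm + 1) : ℤ) : ℝ) := by
      refine (Int.floor_le _).trans ?_
      push_cast
      rw [pow_succ]
      nlinarith [hk.2]
    exact Int.cast_le.1 h3

theorem nu_of {Q : Law Ω} {Rm L h q : ℕ} {W : Ω → Cbx} {l : Ω → Ry} {t : Ω → ℝ}
    (H : ∀ ω, 0 < Q.w ω → LbOk (1 / 1000) L h (W ω) (l ω) (t ω) ∧ (W ω).u2 = 1 ∧ (W ω).u1 = (1 / 2 : ℝ) ^ q)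
    {T : Fin 2 → ℤ} (hT : ∀ ω, 0 < Q.w ω → nT Rm h W l t ω = T) :
    ∃ (ν : Fin 2 → ℝ) (ρ : ℝ), ν 0 ^ 2 + ν 1 ^ 2 = 1 ∧ |ρ - 1| ≤ 1 / 100 * (1 / 2 : ℝ) ^ q ∧
      ∀ ω, 0 < Q.w ω → ∀ k, |nrm (W ω) (bl h (l ω) (t ω)) k - ρ * ν k| ≤ (1 / 2 : ℝ) ^ Rm := by
  obtain ⟨ω0, h0⟩ : ∃ ω, 0 < Q.w ω := by
    by_contra hcon
    push Not at hcon
    have h1 : ∑ ω, Q.w ω ≤ 0 := Finset.sum_nonpos fun ω _ => hcon ω
    rw [Q.sum_one] at h1
    linarith
  obtain ⟨g1, g2, g3⟩ := H ω0 h0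
  set n : Fin 2 → ℝ := nrm (W ω0) (bl h (l ω0) (t ω0)) with hn
  have e := nrm_lb g1 g2 g3
  rw [← hn] at e
  have hq : (1 / 2 : ℝ) ^ q ≤ 1 := pow_le_one₀ (by norm_num) (by norm_num)
  have hq0 : (0 : ℝ) < (1 / 2 : ℝ) ^ q := by positivity
  set s : ℝ := n 0 ^ 2 + n 1 ^ 2 with hs
  have e' := abs_le.1 e
  have hs0 : 0 < s := by linarith [e'.1]
  have hr0 : 0 < Real.sqrt s := Real.sqrt_pos.2 hs0
  have hr2 : Real.sqrt s * Real.sqrt s = s := Real.mul_self_sqrt hs0.le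
  refine ⟨fun k => n k / Real.sqrt s, Real.sqrt s, ?_, ?_, ?_⟩
  · show (n 0 / Real.sqrt s) ^ 2 + (n 1 / Real.sqrt s) ^ 2 = 1
    rw [div_pow, div_pow, ← add_div, Real.sq_sqrt hs0.le]
    exact div_self hs0.ne'
  · have h3 : (Real.sqrt s - 1) * (Real.sqrt s + 1) = s - 1 := by
      linear_combination hr2
    have h4 : |Real.sqrt s - 1| * (Real.sqrt s + 1) = |s - 1| := by
      rw [← h3, abs_mul, abs_of_pos (show 0 < Real.sqrt s + 1 by linarith)]
    have h5 : |Real.sqrt s - 1| ≤ |Real.sqrt s - 1| * (Real.sqrt s + 1) :=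
      le_mul_of_one_le_right (abs_nonneg _) (by linarith)
    linarith
  · intro ω hω k
    have h3 : Real.sqrt s * (n k / Real.sqrt s) = n k := mul_div_cancel₀ _ hr0.ne'
    show |nrm (W ω) (bl h (l ω) (t ω)) k - Real.sqrt s * (n k / Real.sqrt s)| ≤ _
    rw [h3]
    refine fl1_eq_near ?_
    exact congrFun ((hT ω hω).trans (hT ω0 h0).symm) k

theorem hc_nT {D : Type*} {P : Law Ω} {Rm L h q : ℕ} {W : Ω → Cbx} {l : Ω → Ry} {t : Ω → ℝ} (Z : Ω → D)
    (H : ∀ ω, 0 < P.w ω → LbOk (1 / 1000) L h (W ω) (l ω) (t ω) ∧ (W ω).u2 = 1 ∧ (W ω).u1 = (1 / 2 : ℝ) ^ q) :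
    Stk.hc P (nT Rm h W l t) Z ≤
      Real.log (Fintype.piFinset fun _ : Fin 2 => Finset.Icc (-(2 : ℤ) ^ (Rm + 1)) (2 ^ (Rm + 1))).card :=
  H127.hc_le_card P _ Z _ fun ω hω => nT_mem (H ω hω).1 (H ω hω).2.1 (H ω hω).2.2

end fin

theorem pNrm_of (hEv : PEv) (hS1 : PSlb1) (hS2 : PSlb2) : PNrm := by
  obtain ⟨K01, hK01, hS1⟩ := hS1
  obtain ⟨K02, j0, hK02, M2, hS2⟩ := hS2
  refine ⟨max K01 K02, le_max_of_le_left hK01, ?_⟩
  intro lam N β₀ hl0 hl1 hlβ hN
  have hl2 : 0 < Real.log 2 := Real.log_pos (by norm_num)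
  obtain ⟨K1, p0', hK1, hp0', hEv⟩ := hEv lam N β₀ hl0 hl1 hlβ hN
  refine ⟨2 * K1 + 2, by linarith, ?_⟩
  intro d' hd'
  obtain ⟨p0, hp0, hp1, hpp⟩ : ∃ p0 : ℝ, 0 < p0 ∧ p0 ≤ 1 ∧ p0 ≤ p0' :=
    ⟨min p0' 1, lt_min hp0' one_pos, min_le_right _ _, min_le_left _ _⟩
  obtain ⟨θ, hθ, hθ1, hθ2⟩ : ∃ θ : ℝ, 0 < θ ∧ θ ≤ 1 / 16 ∧ 4 * θ ≤ d' :=
    ⟨min (d' / 4) (1 / 16), lt_min (by linarith) (by norm_num), min_le_right _ _, by
      have := min_le_left (d' / 4) (1 / 16)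
      linarith⟩
  obtain ⟨ηe, hηe, hEv⟩ := hEv θ hθ
  obtain ⟨η, hη, hη1, hη2⟩ : ∃ η : ℝ, 0 < η ∧ 2 * η ≤ ηe ∧ 16 * η ≤ p0 * d' := by
    have := mul_pos hp0 hd'
    refine ⟨min (ηe / 2) (p0 * d' / 16), lt_min (by linarith) (by linarith), ?_, ?_⟩
    · have := min_le_left (ηe / 2) (p0 * d' / 16)
      linarith
    · have := min_le_right (ηe / 2) (p0 * d' / 16)
      linarith
  refine ⟨η, hη, ?_⟩
  intro k β β' hk hkη hβ0 hββ hβη hβ3 hF c hc Rm
  have hN0 : (0 : ℝ) ≤ N := by linarith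
  have hβ'0 : 0 ≤ β' := by linarith
  obtain ⟨M, he, hEv⟩ := hEv k β β' hk (by linarith) hβ0 hββ (by linarith) hβ3 hF 100 (by norm_num)
  obtain ⟨Ks, D, hKs, hstr⟩ := strict c lam N k hc hl0.le hl1.le hk.le hN0
  obtain ⟨Kw, hKw, hwp⟩ := wpick lam N k β' hl0.le hl1.le hk hN0 hβ'0 hF 100 (by norm_num) η hη
  obtain ⟨M1, hS1⟩ := hS1 Rm
  -- the threshold
  obtain ⟨nl, hnl⟩ : ∃ nl : ℝ, nl =
      Real.log (Fintype.piFinset fun _ : Fin 2 => Finset.Icc (-(2 : ℤ) ^ (Rm + 1)) (2 ^ (Rm + 1))).card := ⟨_, rfl⟩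
  have hnl0 : 0 ≤ nl := by
    rw [hnl]
    exact Real.log_natCast_nonneg _
  set CC : ℝ := Kw + (1 + N) * Real.log (2 * (M * M2 + 1) : ℕ) + (1 + N) * Real.log M1 + (1 + N) * nl with hCC
  obtain ⟨h1, hh1⟩ := exists_nat_ge (Ks / (η * Real.log 2))
  obtain ⟨h2, hh2⟩ := exists_nat_ge (CC / (p0 * d' / 4 * Real.log 2))
  obtain ⟨h3, hh3⟩ := exists_nat_ge ((1 + j0) / θ)
  obtain ⟨h4, hh4⟩ := exists_nat_ge (2 * (2 + 2 * j0 + Rm) : ℝ)
  refine ⟨he + h1 + h2 + h3 + h4, ?_⟩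
  intro Ω _ γ P l t C L h q W hh hE
  have hhR : ((he + h1 + h2 + h3 + h4 : ℕ) : ℝ) ≤ h := by exact_mod_cast hh
  push_cast at hhR
  have z0 : (0 : ℝ) ≤ he := Nat.cast_nonneg _
  have z1 : (0 : ℝ) ≤ h1 := Nat.cast_nonneg _
  have z2 : (0 : ℝ) ≤ h2 := Nat.cast_nonneg _
  have z3 : (0 : ℝ) ≤ h3 := Nat.cast_nonneg _
  have z4 : (0 : ℝ) ≤ h4 := Nat.cast_nonneg _
  have zh : (0 : ℝ) ≤ h := Nat.cast_nonneg _
  have zj : (0 : ℝ) ≤ j0 := Nat.cast_nonneg _
  have zR : (0 : ℝ) ≤ Rm := Nat.cast_nonneg _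
  have b1 : Ks ≤ η * h * Real.log 2 := by
    have g1 : Ks / (η * Real.log 2) ≤ h := by linarith
    rw [div_le_iff₀ (by positivity)] at g1
    linarith
  have b2 : CC ≤ p0 * d' / 4 * h * Real.log 2 := by
    have g1 : CC / (p0 * d' / 4 * Real.log 2) ≤ h := by linarith
    rw [div_le_iff₀ (by positivity)] at g1
    linarith
  have b3 : 1 + (j0 : ℝ) ≤ θ * h := by
    have g1 : (1 + (j0 : ℝ)) / θ ≤ h := by linarith
    rw [div_le_iff₀ hθ] at g1
    linarith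
  have b4 : 2 * (2 + 2 * (j0 : ℝ) + Rm) ≤ h := by linarith
  have lM : 0 ≤ Real.log (2 * (M * M2 + 1) : ℕ) := Real.log_natCast_nonneg _
  have lM1 : 0 ≤ Real.log M1 := Real.log_natCast_nonneg _
  -- strict labels
  obtain ⟨l', C', L', q', W', hE', hW', -, -⟩ := hstr β η (2 * η) Ω γ P l t C L h q W hE (by
    have e : (2 * η - η) * h * Real.log 2 = η * h * Real.log 2 := by ring
    linarith)
  -- the start of the window
  set ae : ℕ := ⌈θ * h⌉₊ with hae
  have ae1 : θ * h ≤ ae := Nat.le_ceil _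
  have ae2 : (ae : ℝ) < θ * h + 1 := Nat.ceil_lt_add_one (by positivity)
  have hθh : θ * h ≤ h / 16 := by
    have := mul_le_mul_of_nonneg_right hθ1 zh
    linarith
  obtain ⟨kk, hkk⟩ : ∃ kk : ℕ, kk = ⌈K1 * h⌉₊ := ⟨_, rfl⟩
  have kk1 : K1 * h ≤ kk := by
    rw [hkk]
    exact Nat.le_ceil _
  have kk2 : (kk : ℝ) < K1 * h + 1 := by
    rw [hkk]
    exact Nat.ceil_lt_add_one (by positivity)
  have hale : ae + j0 ≤ h := by
    have : (ae : ℝ) + j0 ≤ h := by linarith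
    exact_mod_cast this
  by_cases hq : kk + (ae + j0) + j0 + Rm ≤ q'
  · -- large `q`
    obtain ⟨w, haw⟩ := Nat.exists_eq_add_of_le hale
    have hawR : (h : ℝ) = ae + j0 + w := by exact_mod_cast haw
    obtain ⟨r, hr⟩ := Nat.exists_eq_add_of_le (show kk + (ae + j0) + j0 ≤ q' by omega)
    have hrR : (q' : ℝ) = kk + (ae + j0) + j0 + r := by exact_mod_cast hr
    have hw2 : (h : ℝ) / 2 ≤ w := by linarith
    obtain ⟨E, GE, hEp, hEα, hEf⟩ := hEv Ω (γ × Ry) P l' t C' L' h q' W' (by omega) (nex_mono hE' hη1) ae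
      (r + (ae + j0) + j0) ae1 (by
        push_cast
        linarith)
    obtain ⟨key, S, hS⟩ := hS2 (ae + j0) w q' r (by omega)
    set a : ℕ := ae + j0 with ha
    have haR : (a : ℝ) = ae + j0 := by
      rw [ha]
      push_cast
      ring
    set g : Ω → Cf := fun ω => gk h (r + a + j0) (W' ω) (t ω) with hg
    set ky : Ω → Fin M2 := fun ω => key (W' ω) (l' ω) (t ω) with hky
    set G : Ω → Option (Fin M × Cf × Fin M2) := stG E GE g ky with hG
    -- entropies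
    have e1 : Stk.hc P G (fun ω => (W' ω, fl1 h (t ω), C' ω)) ≤ Real.log (2 * (M * M2 + 1) : ℕ) := by
      refine stG_hc (fun _ => 0) _ fun ω ω' _ _ _ _ _ e _ => ?_
      simp only [Prod.mk.injEq] at e
      obtain ⟨e1, e2, -⟩ := e
      simp only [hg]
      unfold gk
      rw [e1, Fa_fn (W' ω') e2]
    have e2 : Stk.hc P G (fun ω => (l' ω, C' ω)) ≤ Real.log (2 * (M * M2 + 1) : ℕ) := by
      have hT : ∀ ω, 0 < P.w ω → fl1 0 (t ω) = 0 ∨ fl1 0 (t ω) = 1 := fun ω hω => by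
        obtain ⟨g0, g1⟩ := (hE'.ok ω hω).2
        have f0 : 0 ≤ fl1 0 (t ω) := by
          unfold fl1
          exact Int.floor_nonneg.2 (by positivity)
        have f1 : fl1 0 (t ω) ≤ 1 := by
          unfold fl1
          have : ((⌊2 ^ 0 * t ω⌋ : ℤ) : ℝ) ≤ 1 := (Int.floor_le _).trans (by simpa using g1)
          exact_mod_cast this
        omega
      refine stG_hc (fun ω => if fl1 0 (t ω) = 0 then 0 else 1) _ fun ω ω' p p' x x' e0 e e' => ?_
      simp only [Prod.mk.injEq] at e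
      refine hEf ω ω' p p' x x' e.1 ?_ e.2 e'
      rcases hT ω p with y | y <;> rcases hT ω' p' with y' | y'
      · rw [y, y']
      · simp [y, y'] at e0
      · simp [y, y'] at e0
      · rw [y, y']
    -- the common normal
    have hhaw : h = a + w := by omega
    have hWw : ∀ ω, 0 < P.w ω → LbOk (1 / 1000) (L' - a) w (wB a w l' t W' ω) (wR a (l' ω) (t ω)) (wt a (t ω)) ∧
        (wB a w l' t W' ω).u2 = 1 ∧ (wB a w l' t W' ω).u1 = (1 / 2 : ℝ) ^ q' := fun ω hω => by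
      obtain ⟨g1, g2, g3⟩ := hE'.lb ω hω
      have := hW' ω hω
      rw [hhaw] at this
      exact ⟨lb_win this, g2, g3⟩
    set T : Ω → Fin 2 → ℤ := nT Rm w (wB a w l' t W') (fun ω => wR a (l' ω) (t ω)) (fun ω => wt a (t ω)) with hT
    set G2 : Ω → Option (Fin M × Cf × Fin M2) × (Fin 2 → ℤ) := fun ω => (G ω, T ω) with hG2
    have e3 : Stk.hc P G2 (fun ω => (W' ω, fl1 h (t ω), C' ω)) ≤ Real.log (2 * (M * M2 + 1) : ℕ) + nl := by
      rw [hG2, Stk.hc_pair, hnl]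
      exact add_le_add e1 (hc_nT _ hWw)
    have e4 : Stk.hc P G2 (fun ω => (l' ω, C' ω)) ≤ Real.log (2 * (M * M2 + 1) : ℕ) + nl := by
      rw [hG2, Stk.hc_pair, hnl]
      exact add_le_add e2 (hc_nT _ hWw)
    -- the selection
    have hmax : max 0 (β' + η - β) ≤ 2 * η := max_le (by linarith) (by linarith)
    obtain ⟨z, hz1, hz2, hz3⟩ := hwp β (2 * η) d' p0 Ω (γ × Ry) _ P l' t C' G2 L' h q' W' hE' a w (by omega)
      (fun z => ∃ e, z.2.1 = some e) hp0 (by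
        refine hpp.trans (hEp.trans ?_)
        exact prE_mn fun ω hω => stG_E hω) (by
        have m1 : (β' + η - β) * (a : ℝ) ≤ 2 * η * a := by
          have : (0 : ℝ) ≤ a := Nat.cast_nonneg _
          have : β' + η - β ≤ 2 * η := by linarith
          gcongr
        have m2 : max 0 (β' + η - β) * (w : ℝ) ≤ 2 * η * w := by gcongr
        have m3 : (2 * η * h + (β' + η - β) * a + max 0 (β' + η - β) * w) * Real.log 2 ≤
            (4 * η * h) * Real.log 2 := by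
          refine mul_le_mul_of_nonneg_right ?_ hl2.le
          have e : (h : ℝ) = a + w := by linarith
          have e2 : 4 * η * (h : ℝ) = 2 * η * h + (2 * η * a + 2 * η * w) := by
            rw [e]
            ring
          linarith
        have m4 : 4 * η * h * Real.log 2 ≤ p0 * d' / 4 * h * Real.log 2 := by
          have : 4 * η ≤ p0 * d' / 4 := by linarith
          gcongr
        have m5 : p0 * d' / 2 * h * Real.log 2 ≤ p0 * (d' * w * Real.log 2) := by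
          have : p0 * (d' * w * Real.log 2) = p0 * d' * w * Real.log 2 := by ring
          rw [this]
          have : p0 * d' / 2 * h = p0 * d' * (h / 2) := by ring
          rw [this]
          gcongr
        have m6 : N * Stk.hc P G2 (fun ω => (l' ω, C' ω)) ≤ N * (Real.log (2 * (M * M2 + 1) : ℕ) + nl) := by gcongr
        have m7 : 0 ≤ (1 + N) * Real.log M1 := by positivity
        rw [hCC] at b2
        have m8 : p0 * d' / 4 * h * Real.log 2 + p0 * d' / 4 * h * Real.log 2 = p0 * d' / 2 * h * Real.log 2 := by ring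
        linarith)
    obtain ⟨e, he'⟩ := hz1
    refine ⟨P.cond (fun ω => (wC a l' t C' ω, G2 ω)) z, fun ω => wR a (l' ω) (t ω), fun ω => wt a (t ω), L' - a, w, q', r,
      wB a w l' t W', S z.1.2 e.2.1 e.2.2, ?_, by omega, hz3, ?_, fun ω _ => wt_lt a (t ω), ?_,
      nu_of (fun ω hω => hWw ω (cpos hz2 hω).1) (T := z.2.2) (fun ω hω => congrArg (fun z => z.2.2) (cpos hz2 hω).2),
      ?_, by omega, ?_⟩
    · have : 2 * (θ * h) ≤ d' * h := by
        have := mul_le_mul_of_nonneg_right hθ2 zh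
        have := mul_nonneg hd'.le zh
        linarith
      linarith
    · exact fun ω hω => (hWw ω (cpos hz2 hω).1).1
    · intro ω hω
      obtain ⟨p1, p2⟩ := cpos hz2 hω
      have q1 : wC a l' t C' ω = z.1 := congrArg Prod.fst p2
      have q2 : G ω = some e := (congrArg (fun z => z.2.1) p2).trans he'
      obtain ⟨q3, q4, q5⟩ := stG_some q2
      have q6 : (fl1 a (t ω), wo a (l' ω) (t ω), wh a (l' ω) (t ω)) = z.1.2 := congrArg Prod.snd q1
      have o1 := hE'.ok ω p1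
      obtain ⟨g1, g2, g3⟩ := hE'.lb ω p1
      have o2 := hW' ω p1
      have o3 := hEα ω p1 q3
      have hres := hS L' (W' ω) (l' ω) (t ω) o1.1 o1.2.1 o1.2.2 (by rw [← hhaw]; exact o2) g2 g3 (by
        rw [← hhaw, ha, pow_add]
        gcongr)
      rw [q6] at hres
      rw [← hhaw] at hres
      rw [show gk h (r + a + j0) (W' ω) (t ω) = e.2.1 from q4, show key (W' ω) (l' ω) (t ω) = e.2.2 from q5] at hres
      exact hres.mono (le_max_right _ _)
    · exact (min_le_left _ _).trans (by omega)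
    · have : (K1 + 1) * h ≤ (2 * K1 + 2) * w := by
        have : (K1 + 1) * h = (2 * K1 + 2) * (h / 2) := by ring
        rw [this]
        gcongr
      linarith
  · -- small `q`
    obtain ⟨key, S, hS⟩ := hS1 0 h q'
    set G : Ω → Fin M1 := fun ω => key (W' ω) (l' ω) (t ω) with hG
    have hcard : ∀ (D : Type) (Z : Ω → D), Stk.hc P G Z ≤ Real.log M1 := fun D Z => by
      have := H127.hc_le_card P G Z Finset.univ fun _ _ => Finset.mem_univ _
      rwa [Finset.card_univ, Fintype.card_fin] at this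
    have hWw : ∀ ω, 0 < P.w ω → LbOk (1 / 1000) (L' - 0) h (wB 0 h l' t W' ω) (wR 0 (l' ω) (t ω)) (wt 0 (t ω)) ∧
        (wB 0 h l' t W' ω).u2 = 1 ∧ (wB 0 h l' t W' ω).u1 = (1 / 2 : ℝ) ^ q' := fun ω hω => by
      obtain ⟨g1, g2, g3⟩ := hE'.lb ω hω
      have := hW' ω hω
      rw [show h = 0 + h by omega] at this
      exact ⟨lb_win this, g2, g3⟩
    set T : Ω → Fin 2 → ℤ := nT Rm h (wB 0 h l' t W') (fun ω => wR 0 (l' ω) (t ω)) (fun ω => wt 0 (t ω)) with hT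
    set G2 : Ω → Fin M1 × (Fin 2 → ℤ) := fun ω => (G ω, T ω) with hG2
    have hmax : max 0 (β' + η - β) ≤ 2 * η := max_le (by linarith) (by linarith)
    obtain ⟨z, -, hz2, hz3⟩ := hwp β (2 * η) d' 1 Ω (γ × Ry) _ P l' t C' G2 L' h q' W' hE' 0 h (by omega)
      (fun _ => True) one_pos (by
        rw [prE_tr]) (by
        have m2 : max 0 (β' + η - β) * (h : ℝ) ≤ 2 * η * h := by gcongr
        have m3 : (2 * η * h + (β' + η - β) * (0 : ℕ) + max 0 (β' + η - β) * h) * Real.log 2 ≤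
            (4 * η * h) * Real.log 2 := by
          refine mul_le_mul_of_nonneg_right ?_ hl2.le
          rw [Nat.cast_zero, mul_zero]
          linarith
        have m4 : 4 * η * h * Real.log 2 ≤ p0 * d' / 4 * h * Real.log 2 := by
          have : 4 * η ≤ p0 * d' / 4 := by linarith
          gcongr
        have m5 : p0 * d' / 2 * h * Real.log 2 ≤ 1 * (d' * h * Real.log 2) := by
          have : p0 * d' / 2 ≤ d' := by
            have := mul_le_mul_of_nonneg_right hp1 hd'.le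
            linarith
          have : p0 * d' / 2 * h * Real.log 2 ≤ d' * h * Real.log 2 := by gcongr
          linarith
        have n1 : Stk.hc P G2 (fun ω => (W' ω, fl1 h (t ω), C' ω)) ≤ Real.log M1 + nl := by
          rw [hG2, Stk.hc_pair, hnl]
          exact add_le_add (hcard _ _) (hc_nT _ hWw)
        have n2 : Stk.hc P G2 (fun ω => (l' ω, C' ω)) ≤ Real.log M1 + nl := by
          rw [hG2, Stk.hc_pair, hnl]
          exact add_le_add (hcard _ _) (hc_nT _ hWw)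
        have m6 : N * Stk.hc P G2 (fun ω => (l' ω, C' ω)) ≤ N * (Real.log M1 + nl) := by gcongr
        have m7 : 0 ≤ (1 + N) * Real.log (2 * (M * M2 + 1) : ℕ) := by positivity
        rw [hCC] at b2
        have m8 : p0 * d' / 4 * h * Real.log 2 + p0 * d' / 4 * h * Real.log 2 = p0 * d' / 2 * h * Real.log 2 := by ring
        linarith)
    refine ⟨P.cond (fun ω => (wC 0 l' t C' ω, G2 ω)) z, fun ω => wR 0 (l' ω) (t ω), fun ω => wt 0 (t ω), L' - 0, h, q',
      min Rm q', wB 0 h l' t W', S z.2.1, ?_, le_rfl, hz3, ?_, fun ω _ => wt_lt 0 (t ω), ?_,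
      nu_of (fun ω hω => hWw ω (cpos hz2 hω).1) (T := z.2.2) (fun ω hω => congrArg (fun z => z.2.2) (cpos hz2 hω).2),
      le_rfl, min_le_right _ _, ?_⟩
    · have := mul_nonneg hd'.le zh
      linarith
    · exact fun ω hω => (hWw ω (cpos hz2 hω).1).1
    · intro ω hω
      obtain ⟨p1, p2⟩ := cpos hz2 hω
      have q2 : G ω = z.2.1 := congrArg (fun z => z.2.1) p2
      have o1 := hE'.ok ω p1
      obtain ⟨g1, g2, g3⟩ := hE'.lb ω p1
      have o2 := hW' ω p1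
      have hres := hS L' (W' ω) (l' ω) (t ω) o1.1 o1.2.1 o1.2.2 (by rw [Nat.zero_add]; exact o2) g2 g3
      rw [show key (W' ω) (l' ω) (t ω) = z.2.1 from q2] at hres
      exact hres.mono (le_max_left _ _)
    · rw [not_le] at hq
      rcases le_total Rm q' with h5 | h5
      · rw [min_eq_left h5]
        have : (q' : ℝ) ≤ kk + (ae + j0) + j0 + Rm := by exact_mod_cast hq.le
        have : (K1 + 1) * h ≤ (2 * K1 + 2) * h := by
          have : K1 + 1 ≤ 2 * K1 + 2 := by linarith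
          gcongr
        linarith
      · rw [min_eq_right h5]
        have : 0 ≤ (2 * K1 + 2) * h := by positivity
        linarith

end Vale.Agent.P106.U.H61
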