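import Vale.Agent.P106.U.H61.PLem
import Vale.Agent.P106.U.H465.Res

/-!
# P106 / U / H61 : the literal places under helper712's windows (compatibility layer; helper61)

* the names of the first version of `PDef` : `x.w`, `x.C`, `x.R`, `x.k0`, `x.F`, `x.Vs`, `x.Xs`, `x.cap`, `x.Ok`, `x.pc`, and
  `x.meanO T f` (sum over ALL windows `b0 + Tc s ≤ nB` of the means; the old `x.mean`), with their lemmas.
* **`meanO_pc`** : `x.meanO T (x.pc oo k1 Φ) = x.mean oo T (if k1 ≤ k then Φ (w.R k z) (w.nm k z) (w.F p.fp k z) (w.bS p.fp k) ..)`.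
-/

set_option autoImplicit false

namespace Vale.Agent.P106.U.H61.PS

open Finset Vale.Agent.P127 Vale.Agent.P127.Stk Vale.Agent.P127.U Vale.Agent.P106.W
open Vale.Agent.P127.U.CellD (q2)
open Vale.Agent.P106.U Vale.Agent.P106.U.H449
open Vale.Agent.P106.U.LinkR Vale.Agent.P106.U.InsL Vale.Agent.P106.U.InpC Vale.Agent.P106.U.StripL
open Vale.Agent.P106.U.H565 Vale.Agent.P106.U.H823.NumW Vale.Agent.P106.U.H823.PathNum
open Vale.Agent.P106.U.S3 (Run Pf)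
open Vale.Agent.P106.U.H61.Ext2
open Vale.Agent.P106.U.H712.Fam (Win Vl Pl pfC)

/-- types of the letters of the run with the prefix letter -/
abbrev Tt := List (ℤ × ℤ × ℤ × ℤ) × (ℕ → ℤ → Option ℤ)
abbrev Uu := ℤ × S1
abbrev Pp := ℕ → ℤ → Option ℤ

/-- the value of the word -/
abbrev Vw := (ℕ → Bool) × (ℕ → ℕ → ℕ)

namespace Ctx

variable {σ : S5.Cst} {cc : ℝ} {J M Md : ℕ} {p : Par} {X0 R0 h0 : ℕ} {Ω : Type} [Fintype Ω]
  (x : Ctx σ cc J M Md p X0 R0 h0 Ω)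

/-- the word of the place -/
noncomputable abbrev w (b0 kk : ℕ) : Ω → Vw := x.c.zW x.hm cc p.s x.bt x.Q1 b0 kk

/-- **the data at the place** -/
noncomputable def C (oo : Oo) (b0 kk : ℕ) (e : Vw) (hz : 0 < x.Q1.pr (x.w b0 kk) e) : C2 Ω :=
  x.c.c2 x.hm cc x.good x.cn x.St.in0 x.hc p.s x.bt b0 kk e hz oo.o oo.oK oo.oG oo.oN

/-- **the run** -/
noncomputable def R (oo : Oo) (b0 kk : ℕ) (e : Vw) (hz : 0 < x.Q1.pr (x.w b0 kk) e) : Run Ω Tt Uu :=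
  (x.C oo b0 kk e hz).erun x.hm

/-- the line precision of `mt0`, in blocks -/
noncomputable def k0 (oo : Oo) (b0 kk : ℕ) (e : Vw) (hz : 0 < x.Q1.pr (x.w b0 kk) e) : ℕ → ℕ :=
  H715.RegR.k0 (x.C oo b0 kk e hz).D (H715.RegC.RCe x.c.I.ha e.2 0)

/-- **the prefix data** -/
noncomputable def F (oo : Oo) (b0 kk : ℕ) (e : Vw) (hz : 0 < x.Q1.pr (x.w b0 kk) e) (hk : Monotone (x.k0 oo b0 kk e hz))
    (hl : ∀ i, x.k0 oo b0 kk e hz i ≤ (x.C oo b0 kk e hz).D.L.k ((x.C oo b0 kk e hz).D.ix i)) : Pf (x.R oo b0 kk e hz) Pp :=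
  (x.C oo b0 kk e hz).pfd x.hm (x.k0 oo b0 kk e hz) hk hl p.B

/-- young levels -/
noncomputable def Vs (kk : ℕ) (e : Vw) : Finset ℕ :=
  H661.Yng.Vs (H339W.RCz x.c.I.ha kk e.2) (Rw x.c.I.pm.n x.E1 1) x.c.I.ha p.D0 p.g (kk - p.k1) kk

/-- exceptional levels -/
noncomputable def Xs (b0 kk : ℕ) (e : Vw) : Finset ℕ :=
  H661.Yng.Xs (H339W.RCz x.c.I.ha kk e.2) (Rw x.c.I.pm.n x.E1 1) x.c.I.ha p.D0 p.g (kk - p.k1) kk ∪
    H715.RegC.hits (H715.RegC.Fo x.c x.E1) x.c.I.ha p.B (p.L * p.s) p.s b0 kk e.2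

/-- the later cap, in digits -/
noncomputable def cap (b0 kk : ℕ) : ℕ := x.c.I.m * (b0 + kk * p.s + p.L * p.s)

/-- the place counts: `8 B < b0`, `k1 ≤ kk`, all bits true; and the data `F` is defined there -/
structure Ok (oo : Oo) (k1 b0 kk : ℕ) (e : Vw) : Prop where
  hz : 0 < x.Q1.pr (x.w b0 kk) e
  hb : 8 * p.B < b0
  hk1 : k1 ≤ kk
  bits : ∀ j ≤ kk, e.1 j = true
  hk : Monotone (x.k0 oo b0 kk e hz)
  hl : ∀ i, x.k0 oo b0 kk e hz i ≤ (x.C oo b0 kk e hz).D.L.k ((x.C oo b0 kk e hz).D.ix i)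

open Classical in
/-- **the cost of a place** : `Φ run num data (later cap) Vs Xs` -/
noncomputable def pc (oo : Oo) (k1 : ℕ) (Φ : ∀ (R : Run Ω Tt Uu), Run.Num → Pf R Pp → ℕ → Finset ℕ → Finset ℕ → ℝ) (b0 kk : ℕ)
    (e : Vw) : ℝ :=
  if h : x.Ok oo k1 b0 kk e then
    Φ (x.R oo b0 kk e h.hz) (x.C oo b0 kk e h.hz).num (x.F oo b0 kk e h.hz h.hk h.hl) (x.cap b0 kk) (x.Vs kk e) (x.Xs b0 kk e)
  else 0

/-- **sum over the places of the means** : windows `b0 + Tc s ≤ nB`, caps `kk < T` -/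
noncomputable def meanO (T : ℕ) (f : ℕ → ℕ → Vw → ℝ) : ℝ :=
  ∑ b0 ∈ range (x.nB + 1 - p.Tc * p.s), ∑ kk ∈ range T, x.Q1.ex (fun ω => f b0 kk (x.w b0 kk ω))

variable {oo : Oo} {b0 kk k1 : ℕ} {e : Vw}

/-- the second component of the word -/
theorem zr (b0 kk : ℕ) (ω : Ω) : x.c.Zr x.hm cc p.s x.Q1 b0 kk ω = (x.w b0 kk ω).2 := rfl

/-- a point of the support -/
theorem pt (hz : 0 < x.Q1.pr (x.w b0 kk) e) : ∃ ω, 0 < x.Q1.w ω ∧ x.w b0 kk ω = e :=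
  ⟨_, supp_cond hz (H465.GcK.ex_supp (x.Q1.cond (x.w b0 kk) e)).choose_spec⟩

/-- **the data are good at a value with true bits** -/
theorem hyp (oo : Oo) (hz : 0 < x.Q1.pr (x.w b0 kk) e) (hb : ∀ j ≤ kk, e.1 j = true) :
    ∃ Ac rc, (x.C oo b0 kk e hz).Hyp x.Rm cc Ac rc :=
  x.HB b0 kk e hz hb oo.o oo.oK oo.oG oo.oN

/-- 823's numbers -/
theorem hasO (oo : Oo) (hz : 0 < x.Q1.pr (x.w b0 kk) e) (hb : ∀ j ≤ kk, e.1 j = true) :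
    Has (x.C oo b0 kk e hz).D (x.R oo b0 kk e hz) (x.C oo b0 kk e hz).num := by
  obtain ⟨Ac, rc, H⟩ := x.hyp oo hz hb
  exact C2.has_erun (hm := x.hm) H

/-- **the numbers of `mt0`** : monotone, at most the precision of the path -/
theorem hkl (oo : Oo) (hz : 0 < x.Q1.pr (x.w b0 kk) e) (hb : ∀ j ≤ kk, e.1 j = true) :
    Monotone (x.k0 oo b0 kk e hz) ∧
      ∀ i, x.k0 oo b0 kk e hz i ≤ (x.C oo b0 kk e hz).D.L.k ((x.C oo b0 kk e hz).D.ix i) := by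
  obtain ⟨Ac, rc, H⟩ := x.hyp oo hz hb
  obtain ⟨ω, hω, hwz⟩ := x.pt hz
  have he : x.c.Zr x.hm cc p.s x.Q1 b0 kk ω = e.2 := by rw [x.zr, hwz]
  have hli : ∀ k, (x.C oo b0 kk e hz).D.li k < (x.C oo b0 kk e hz).I.ha := by
    intro k
    have h1 := H428.RunPt.li_le (x.C oo b0 kk e hz) k
    have h2 := (x.C oo b0 kk e hz).good.Ab1
    have h3 := (x.C oo b0 kk e hz).good.Ab2
    have h4 : 4 ≤ (x.C oo b0 kk e hz).N0 := by
      have := H.N0s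
      omega
    omega
  obtain ⟨r1, r2, -, -⟩ := H715.RegC.reg_fields (c := x.c) (hm := x.hm) (cc := cc) (Q := x.Q1) (E := x.E1) (x := x.x1)
    (C2.has_erun (hm := x.hm) H) x.cn x.St.in0 x.hc (s := p.s) (b0 := b0) (kk := kk) he
    (B := 0) (βS := 0) (βV := 0) (Vs := ∅)
    (Xs := H715.RegC.hits (H715.RegC.Fo x.c x.E1) x.c.I.ha 0 0 p.s b0 kk e.2)
    rfl (fun a ha => C1.mk2_RC (c := x.c.c1 x.good x.cn) (hm := x.hm) (cc := cc) (in0 := x.St.in0) (hc := x.hc) (hz := hz)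
      (ps := 4) (o := oo.o) (oK := oo.oK) (oG := oo.oG) (oN := oo.oN) (fun ω' _ h' => by
        show x.c.Zr x.hm cc p.s x.Q1 b0 kk ω' = e.2
        rw [x.zr, h']) ha)
    rfl le_rfl hli subset_rfl
  exact ⟨r1, r2⟩

/-- **the place counts** -/
theorem ok (oo : Oo) (hz : 0 < x.Q1.pr (x.w b0 kk) e) (h8 : 8 * p.B < b0) (hk1 : k1 ≤ kk) (hb : ∀ j ≤ kk, e.1 j = true) :
    x.Ok oo k1 b0 kk e :=
  ⟨hz, h8, hk1, hb, (x.hkl oo hz hb).1, (x.hkl oo hz hb).2⟩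

theorem Ok.hyp {x : Ctx σ cc J M Md p X0 R0 h0 Ω} (h : x.Ok oo k1 b0 kk e) :
    ∃ Ac rc, (x.C oo b0 kk e h.hz).Hyp x.Rm cc Ac rc := x.hyp oo h.hz h.bits

theorem Ok.mono {x : Ctx σ cc J M Md p X0 R0 h0 Ω} (h : x.Ok oo k1 b0 kk e) {k1' : ℕ} (hk : k1' ≤ k1) :
    x.Ok oo k1' b0 kk e := ⟨h.hz, h.hb, hk.trans h.hk1, h.bits, h.hk, h.hl⟩

section pc

variable {Φ Ψ : ∀ (R : Run Ω Tt Uu), Run.Num → Pf R Pp → ℕ → Finset ℕ → Finset ℕ → ℝ}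

theorem pc_ok (h : x.Ok oo k1 b0 kk e) : x.pc oo k1 Φ b0 kk e =
    Φ (x.R oo b0 kk e h.hz) (x.C oo b0 kk e h.hz).num (x.F oo b0 kk e h.hz h.hk h.hl) (x.cap b0 kk) (x.Vs kk e) (x.Xs b0 kk e) :=
  dif_pos h

theorem pc_not (h : ¬ x.Ok oo k1 b0 kk e) : x.pc oo k1 Φ b0 kk e = 0 := dif_neg h

/-- nonnegative -/
theorem pc_nonneg (h : ∀ (R : Run Ω Tt Uu) n F b Vs Xs, 0 ≤ Φ R n F b Vs Xs) : 0 ≤ x.pc oo k1 Φ b0 kk e := by
  by_cases h1 : x.Ok oo k1 b0 kk e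
  · rw [x.pc_ok h1]
    exact h _ _ _ _ _ _
  · rw [x.pc_not h1]

/-- monotone, at the places which count -/
theorem pc_mono' (h : ∀ h : x.Ok oo k1 b0 kk e,
    Φ (x.R oo b0 kk e h.hz) (x.C oo b0 kk e h.hz).num (x.F oo b0 kk e h.hz h.hk h.hl) (x.cap b0 kk) (x.Vs kk e) (x.Xs b0 kk e) ≤
    Ψ (x.R oo b0 kk e h.hz) (x.C oo b0 kk e h.hz).num (x.F oo b0 kk e h.hz h.hk h.hl) (x.cap b0 kk) (x.Vs kk e) (x.Xs b0 kk e)) :
    x.pc oo k1 Φ b0 kk e ≤ x.pc oo k1 Ψ b0 kk e := by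
  by_cases h1 : x.Ok oo k1 b0 kk e
  · rw [x.pc_ok h1, x.pc_ok h1]
    exact h h1
  · rw [x.pc_not h1, x.pc_not h1]

theorem pc_mono (h : ∀ (R : Run Ω Tt Uu) n F b Vs Xs, Φ R n F b Vs Xs ≤ Ψ R n F b Vs Xs) :
    x.pc oo k1 Φ b0 kk e ≤ x.pc oo k1 Ψ b0 kk e := x.pc_mono' fun _ => h _ _ _ _ _ _

/-- fewer places -/
theorem pc_k1 (h : ∀ (R : Run Ω Tt Uu) n F b Vs Xs, 0 ≤ Φ R n F b Vs Xs) {k1' : ℕ} (hk : k1' ≤ k1) :
    x.pc oo k1 Φ b0 kk e ≤ x.pc oo k1' Φ b0 kk e := by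
  by_cases h1 : x.Ok oo k1 b0 kk e
  · rw [x.pc_ok h1, x.pc_ok (h1.mono hk)]
  · rw [x.pc_not h1]
    exact x.pc_nonneg h

theorem pc_add : x.pc oo k1 (fun R n F b Vs Xs => Φ R n F b Vs Xs + Ψ R n F b Vs Xs) b0 kk e =
    x.pc oo k1 Φ b0 kk e + x.pc oo k1 Ψ b0 kk e := by
  by_cases h1 : x.Ok oo k1 b0 kk e
  · rw [x.pc_ok h1, x.pc_ok h1, x.pc_ok h1]
  · rw [x.pc_not h1, x.pc_not h1, x.pc_not h1, add_zero]

/-- a bound of the cost at a place gives a bound of `Φ` -/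
theorem pc_le (h1 : x.Ok oo k1 b0 kk e) {t : ℝ} (h : x.pc oo k1 Φ b0 kk e ≤ t) :
    Φ (x.R oo b0 kk e h1.hz) (x.C oo b0 kk e h1.hz).num (x.F oo b0 kk e h1.hz h1.hk h1.hl) (x.cap b0 kk) (x.Vs kk e)
      (x.Xs b0 kk e) ≤ t := by
  rwa [x.pc_ok h1] at h

/-- **the cost at a value of the word is the cost in 712's window** -/
theorem pc_eq {kk : ℕ} {ω : Ω} (hω : 0 < x.Q1.w ω) (h8 : 8 * p.B < b0) (hk1 : k1 ≤ kk)
    (hg : H712.Fam.Win.good kk (x.w b0 kk ω)) : x.pc oo k1 Φ b0 kk (x.w b0 kk ω) =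
      Φ ((x.win oo b0).R kk (x.w b0 kk ω)) ((x.win oo b0).nm kk (x.w b0 kk ω)) ((x.win oo b0).F p.fp kk (x.w b0 kk ω))
        ((x.win oo b0).bS p.fp kk) ((x.win oo b0).Vs p.fp kk (x.w b0 kk ω)) ((x.win oo b0).Xs p.fp kk (x.w b0 kk ω)) := by
  have hz : 0 < x.Q1.pr (x.w b0 kk) (x.w b0 kk ω) := x.Q1.pr_pos _ hω
  have hOk := x.ok oo hz h8 hk1 hg
  rw [x.pc_ok hOk]
  have e1 : (x.win oo b0).cv kk (x.w b0 kk ω) = x.C oo b0 kk (x.w b0 kk ω) hz := (x.win oo b0).cv_eq hz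
  have key : ∀ (C' : C2 Ω) (h3 : 3 ≤ C'.I.m), C' = x.C oo b0 kk (x.w b0 kk ω) hz →
      Φ (C'.erun h3) C'.num (pfC C' h3 ((x.win oo b0).rt (x.w b0 kk ω) 0) p.B) (x.cap b0 kk) (x.Vs kk (x.w b0 kk ω))
        (x.Xs b0 kk (x.w b0 kk ω)) =
      Φ (x.R oo b0 kk (x.w b0 kk ω) hz) (x.C oo b0 kk (x.w b0 kk ω) hz).num (x.F oo b0 kk (x.w b0 kk ω) hz hOk.hk hOk.hl)
        (x.cap b0 kk) (x.Vs kk (x.w b0 kk ω)) (x.Xs b0 kk (x.w b0 kk ω)) := by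
    intro C' h3 hC
    subst hC
    rw [show pfC _ h3 ((x.win oo b0).rt (x.w b0 kk ω) 0) p.B = _ from dif_pos ⟨hOk.hk, hOk.hl⟩]
    rfl
  exact (key _ _ e1).symm

/-- **the mean of the cost, in 712's windows** -/
theorem meanO_pc (T : ℕ) : x.meanO T (x.pc oo k1 Φ) = x.mean oo T (fun w k z => if k1 ≤ k then
    Φ (w.R k z) (w.nm k z) (w.F p.fp k z) (w.bS p.fp k) (w.Vs p.fp k z) (w.Xs p.fp k z) else 0) := by
  classical
  unfold meanO mean bs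
  rw [Finset.sum_filter]
  refine Finset.sum_congr rfl fun b _ => ?_
  split_ifs with hb
  · unfold H712.Fam.Win.av
    refine Finset.sum_congr rfl fun kk _ => x.Q1.ex_congr fun ω hω => ?_
    show x.pc oo k1 Φ b kk (x.w b kk ω) = if H712.Fam.Win.good kk (x.w b kk ω) then (if k1 ≤ kk then
      Φ ((x.win oo b).R kk (x.w b kk ω)) ((x.win oo b).nm kk (x.w b kk ω)) ((x.win oo b).F p.fp kk (x.w b kk ω))
        ((x.win oo b).bS p.fp kk) ((x.win oo b).Vs p.fp kk (x.w b kk ω)) ((x.win oo b).Xs p.fp kk (x.w b kk ω)) else 0) else 0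
    by_cases hg : H712.Fam.Win.good kk (x.w b kk ω)
    · by_cases hk : k1 ≤ kk
      · rw [if_pos hg, if_pos hk]
        exact x.pc_eq hω hb hk hg
      · rw [if_pos hg, if_neg hk]
        exact x.pc_not fun h => hk h.hk1
    · rw [if_neg hg]
      exact x.pc_not fun h => hg h.bits
  · refine Finset.sum_eq_zero fun kk _ => ?_
    have e2 : (fun ω => x.pc oo k1 Φ b kk (x.w b kk ω)) = fun _ => (0 : ℝ) := by
      funext ω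
      exact x.pc_not fun h => hb h.hb
    rw [e2, Law.ex_const]

end pc

section mean

variable {T : ℕ} {f g : ℕ → ℕ → Vw → ℝ}

theorem meanO_mono' (h : ∀ b0 < x.nB + 1 - p.Tc * p.s, ∀ kk < T, ∀ ω, 0 < x.Q1.w ω → f b0 kk (x.w b0 kk ω) ≤ g b0 kk (x.w b0 kk ω)) :
    x.meanO T f ≤ x.meanO T g :=
  Finset.sum_le_sum fun b0 hb => Finset.sum_le_sum fun kk hkk =>
    x.Q1.ex_mono (h b0 (Finset.mem_range.1 hb) kk (Finset.mem_range.1 hkk))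

theorem meanO_mono (h : ∀ b0 kk e, f b0 kk e ≤ g b0 kk e) : x.meanO T f ≤ x.meanO T g :=
  x.meanO_mono' fun _ _ _ _ _ _ => h _ _ _

theorem meanO_nonneg (h : ∀ b0 kk e, 0 ≤ f b0 kk e) : 0 ≤ x.meanO T f :=
  Finset.sum_nonneg fun _ _ => Finset.sum_nonneg fun _ _ => x.Q1.ex_nonneg fun _ _ => h _ _ _

theorem meanO_range (h : ∀ b0 kk e, 0 ≤ f b0 kk e) {T' : ℕ} (hT : T ≤ T') : x.meanO T f ≤ x.meanO T' f :=
  Finset.sum_le_sum fun _ _ => Finset.sum_le_sum_of_subset_of_nonneg (Finset.range_mono hT) fun _ _ _ =>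
    x.Q1.ex_nonneg fun _ _ => h _ _ _

theorem meanO_add : x.meanO T (fun b0 kk e => f b0 kk e + g b0 kk e) = x.meanO T f + x.meanO T g := by
  unfold meanO
  rw [← Finset.sum_add_distrib]
  refine Finset.sum_congr rfl fun b0 _ => ?_
  rw [← Finset.sum_add_distrib]
  refine Finset.sum_congr rfl fun kk _ => ?_
  exact x.Q1.ex_add _ _

end mean

end Ctx

variable {σ : S5.Cst} {cc : ℝ} {J M Md : ℕ} {p : Par} {X0 R0 h0 : ℕ} {Ω : Type} [Fintype Ω]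

/-- `Off`, in the old form -/
theorem Off.avgO {x : Ctx σ cc J M Md p X0 R0 h0 Ω} {oo : Oo} {μ : ℕ} {K' : ℝ} {o : Fin 7 → ℝ} {o' : ℕ → ℝ}
    (h : Off x oo μ K' o o') :
    x.meanO (2 * p.Tc) (x.pc oo 0 fun R n F b _ _ => H101.Off.o4 R n p.B b b F (H101.Off.allV R) ∅ μ K' o o') ≤
      600 / K' * q2 (μ / 4) * (x.nB * p.Tc) := by
  refine le_trans (le_of_eq ?_) h.avg
  rw [x.meanO_pc]
  congr 1

/-- **a row from its old form** -/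
theorem row_of_O {FX : FO} {Ψ : ∀ (_ : Par) (_ : ℕ) (_ : ℝ) (_ : Fin 7 → ℝ) (_ : ℕ → ℝ) (Ω : Type) [Fintype Ω] (R : Run Ω Tt Uu),
      Run.Num → Pf R Pp → ℕ → Finset ℕ → Finset ℕ → ℝ}
    (h : ∀ σ : S5.Cst, σ.Ok → ∀ (K Cψ cc : ℝ) (J M Md : ℕ), Cnd K Cψ cc J M Md →
      Evp fun p X0 R0 h0 => ∀ (Ω : Type) [Fintype Ω] (x : Ctx σ cc J M Md p X0 R0 h0 Ω) (oo : Oo),
        FX σ K cc J M Md p X0 R0 h0 Ω x oo → ∀ μ ≤ p.B, p.m ≤ μ → ∀ j : ℕ, (100 * K) ^ 20 ≤ (2 : ℝ) ^ j → (2 : ℝ) ^ j ≤ 2 * p.B →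
        ∀ (o : Fin 7 → ℝ) (o' : ℕ → ℝ), Off x oo μ (2 ^ j) o o' →
          x.meanO p.Tc (x.pc oo p.k1 (Ψ p μ (2 ^ j) o o' Ω)) ≤ x.nB * p.Tc * tgt p.B μ j) :
    Row FX fun p μ K' o o' Ω _ w k z =>
      Ψ p μ K' o o' Ω (w.R k z) (w.nm k z) (w.F p.fp k z) (w.bS p.fp k) (w.Vs p.fp k z) (w.Xs p.fp k z) := by
  intro σ hσ K Cψ cc J M Md hC
  refine (h σ hσ K Cψ cc J M Md hC).mono fun p X0 R0 h0 H Ω _ x oo hF μ hμ hm j h1 h2 o o' hO => ?_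
  have h3 := H Ω x oo hF μ hμ hm j h1 h2 o o' hO
  rw [x.meanO_pc] at h3
  exact h3

end Vale.Agent.P106.U.H61.PS
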