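import Vale.Agent.P106.U.H61.Mac
import Vale.Agent.P106.U.H416.WinX
import Vale.Agent.P106.U.H875.XX
import Vale.Agent.P106.U.H875.Mix
import Vale.Agent.P106.U.H523.Best

/-!
# P106 / U / H61 : conditioning of near-extremal systems (windows, letters, patterns)

* `Df` : defect of a system (trivial letter).
* `wsel` : the mean defect over the values of `(window letter, G)` is at most the defect + the price of `G`.
* `low` : lower bound of the defect.
* `wpick` : in every set `Good` of values of probability `≥ p0` there is one whose window is a near-extremal system with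
  trivial letter.
* `pick` : the same without window (`a = 0`).
-/

set_option autoImplicit false

namespace Vale.Agent.P106.U.H61

open Finset Vale.Agent.P127 Vale.Agent.P127.Stk Vale.Agent.P127.U Vale.Agent.P106.W Vale.Agent.P106.K
open Vale.Agent.P106.U Vale.Agent.P106.U.H416

section fin

variable {Ω : Type} [Fintype Ω] {γ δ : Type}

/-- the defect -/
noncomputable def Df (c lam N k β : ℝ) (P : Law Ω) (l : Ω → Ry) (t : Ω → ℝ) (C : Ω → γ) (L h q : ℕ) (W : Ω → Cbx) : ℝ :=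
  XX c lam k 0 P l t C (fun _ => (0, q)) L 0 + β * h * Real.log 2 + N * Dd P l t C h - val lam P l t C h W

/-- mixture of the defects over a letter -/
theorem Df_mix {c lam N k β : ℝ} {P : Law Ω} {l : Ω → Ry} {t : Ω → ℝ} {C : Ω → γ} {L h q : ℕ} {W : Ω → Cbx}
    (hc : 0 ≤ c) (h0 : 0 ≤ lam) (h1 : lam ≤ 1) (hk : 0 ≤ k) (E : Ω → δ) :
    Df c lam N k β P l t (fun ω => (C ω, E ω)) L h q W =
      ∑ z ∈ img E, P.pr E z * Df c lam N k β (P.cond E z) l t C L h q W := by
  unfold Df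
  rw [H875.XX_mix (C := C) hc (Nat.zero_le L) h0 h1 hk le_rfl E, U.Dd_mix, U.val_mix]
  simp only [mul_sub, mul_add, Finset.sum_sub_distrib, Finset.sum_add_distrib, Finset.mul_sum]
  have hs : ∑ z ∈ img E, P.pr E z = 1 := P.sum_pr_image E
  have e1 : ∑ z ∈ img E, P.pr E z * (β * h * Real.log 2) = β * h * Real.log 2 := by
    rw [← Finset.sum_mul, hs, one_mul]
  rw [e1]
  congr 2
  refine Finset.sum_congr rfl fun z _ => by ring

end fin

/-- **the mean defect of the windows** -/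
theorem wsel (lam N k β' : ℝ) (h0 : 0 ≤ lam) (h1 : lam ≤ 1) (hk : 0 < k) (hN : 0 ≤ N) (hβ' : 0 ≤ β')
    (hF : FIXA lam N (4 * k) β') (c : ℝ) (hc : 1 ≤ c) (ε : ℝ) (hε : 0 < ε) : ∃ K : ℝ, 0 ≤ K ∧
    ∀ (β d : ℝ) (Ω : Type) [Fintype Ω] (γ δ : Type) (P : Law Ω) (l : Ω → Ry) (t : Ω → ℝ) (C : Ω → γ) (G : Ω → δ)
      (L h q : ℕ) (W : Ω → Cbx), NEx c lam N k β d P l t C L h q W → ∀ a w : ℕ, a + w = h →
      Df c lam N (2 * k) β P (fun ω => wR a (l ω) (t ω)) (fun ω => wt a (t ω)) (fun ω => ((), (wC a l t C ω, G ω)))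
          (L - a) w q (wB a w l t W) ≤
        (d * h + (β' + ε - β) * a) * Real.log 2 + K + Stk.hc P G (fun ω => (W ω, fl1 h (t ω), C ω)) +
          N * Stk.hc P G (fun ω => (l ω, C ω)) := by
  obtain ⟨K1, hK1⟩ := H416.pWinX lam N (4 * k) N β' h0 h1 (by linarith) hN le_rfl hβ' hF c hc ε hε
  obtain ⟨K2, hK2⟩ := H416.pAbs c lam (2 * k) N hc h0 h1 (by linarith) hN
  refine ⟨max 0 (K1 + K2 + N * Real.log 2 + 3 * Real.log (2 * cM c + 3)), le_max_left _ _, ?_⟩
  intro β d Ω _ γ δ P l t C G L h q W hE a w haw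
  subst haw
  have hcc : (0 : ℝ) ≤ c := by linarith
  have haL : a ≤ L := by
    have := hE.hL
    omega
  have hLw : ∀ ω, 0 < P.w ω → LbOk c L (a + w) (W ω) (l ω) (t ω) := fun ω hω => (hE.lb ω hω).1
  set l' : Ω → Ry := fun ω => wR a (l ω) (t ω) with hl'
  set t' : Ω → ℝ := fun ω => wt a (t ω) with ht'
  set Z : Ω → (γ × ℤ × (Fin 2 → ℤ) × ℤ) × δ := fun ω => (wC a l t C ω, G ω) with hZ
  -- the functional
  have x1 : XX c lam (2 * k) 0 P l' t' (fun ω => ((), Z ω)) (fun _ => (0, q)) (L - a) 0 ≤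
      XX c lam (2 * k) 0 P l' t' (wC a l t C) (fun _ => (0, q)) (L - a) 0 :=
    H875.XX_mono_C hcc (Nat.zero_le _) h0 h1 (by linarith) le_rfl fun ω ω' _ _ e =>
      congrArg (fun z => z.2.1) e
  have x2 := XX_win (c := c) (lam := lam) (k := 2 * k) (La := 0) (P := P) (l := l) (t := t) (C := C)
    (e := fun _ => (0, q)) (L := L) (a := a) ⟨h0, h1⟩ (by linarith) le_rfl hcc haL
  have x3 : XX c lam (2 * k) 0 P l t C (fun _ => (0, q)) L a ≤ XX c lam (2 * k) N P l t C (fun _ => (0, q)) L a :=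
    H875.XX_mono_k hcc haL h0 h1 (by linarith) hN le_rfl hN
  have x4 := hK1 Ω γ P l t C (fun _ => (0, q)) L 0 a (by omega) hE.ok
  have x5 := hK2 Ω γ P l t C (0, q) L 0 (Nat.zero_le _) hE.ok
  have e4 : 4 * k / 2 = 2 * k := by ring
  have e5 : 2 * k / 2 = k := by ring
  rw [e4, Nat.zero_add] at x4
  rw [e5] at x5
  have x6 := hE.ex
  have x7 : -Real.log 2 ≤ Dd P l t C 0 := H523.Dd_ge hE.ok 0
  -- the value
  have v1 := val_win (lam := lam) (P := P) (l := l) (t := t) (C := C) (L := L) (a := a) (w := w) (W := W) hcc hE.ok hLw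
  have v2 := U.val_pair (lam := lam) (P := P) (l := l') (t := t') (C := wC a l t C) (a := w) G (wB a w l t W)
  have v3 : Stk.hc P G (fun ω => (wB a w l t W ω, fl1 w (t' ω), wC a l t C ω)) ≤
      Stk.hc P G (fun ω => (W ω, fl1 (a + w) (t ω), C ω)) := by
    refine Stk.hc_mono_right P _ ?_
    intro ω ω' _ _ e
    simp only [Prod.mk.injEq, wC] at e ⊢
    obtain ⟨e1, e2, e3, e4, e5, e6⟩ := e
    refine ⟨?_, (fl1_wt_iff e4).1 e2, e3⟩
    unfold wB at e1
    rw [e5, e6] at e1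
    exact trB_inj e1
  have v4 : val lam P l' t' (fun ω => ((), Z ω)) w (wB a w l t W) =
      val lam P l' t' (fun ω => (wC a l t C ω, G ω)) w (wB a w l t W) := by
    refine le_antisymm (U.val_mono_C ?_ _) (U.val_mono_C ?_ _)
    · intro ω ω' _ _ e
      exact congrArg Prod.snd e
    · intro ω ω' _ _ e
      simp only [Prod.mk.injEq, true_and]
      exact e
  -- the time
  have d1 := Dd_win (P := P) (l := l) (t := t) (C := C) (a := a) (w := w)
  have d2 := U.Dd_pair_le (P := P) (l := l') (t := t') (C := wC a l t C) (a := w) G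
  have d3 : Stk.hc P G (fun ω => (l' ω, wC a l t C ω)) ≤ Stk.hc P G (fun ω => (l ω, C ω)) := by
    refine Stk.hc_mono_right P _ ?_
    intro ω ω' _ _ e
    simp only [Prod.mk.injEq, wC] at e ⊢
    obtain ⟨e1, e2, e3, e4, e5⟩ := e
    exact ⟨wR_inj e3 e4 e5 e1, e2⟩
  have d4 : Dd P l' t' (fun ω => ((), Z ω)) w = Dd P l' t' (fun ω => (wC a l t C ω, G ω)) w := by
    refine U.Dd_congr_C ?_ ?_
    · intro ω ω' _ _ e
      exact congrArg Prod.snd e
    · intro ω ω' _ _ e
      simp only [Prod.mk.injEq, true_and]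
      exact e
  have d5 : N * Dd P l' t' (fun ω => (wC a l t C ω, G ω)) w ≤
      N * (Dd P l t C (a + w) - Dd P l t C a) + N * Stk.hc P G (fun ω => (l ω, C ω)) := by
    rw [← mul_add]
    refine mul_le_mul_of_nonneg_left ?_ hN
    rw [← d1]
    linarith
  have hK := le_max_right 0 (K1 + K2 + N * Real.log 2 + 3 * Real.log (2 * cM c + 3))
  unfold Df
  rw [v4, d4]
  have n1 : N * -Real.log 2 ≤ N * Dd P l t C 0 := mul_le_mul_of_nonneg_left x7 hN
  push_cast at x6 v1 ⊢
  have n2 : N * (Dd P l t C a - Dd P l t C 0) = N * Dd P l t C a - N * Dd P l t C 0 := by ring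
  have n3 : N * (Dd P l t C (a + w) - Dd P l t C a) = N * Dd P l t C (a + w) - N * Dd P l t C a := by ring
  rw [n2] at x4
  rw [n3] at d5
  linarith

/-- **lower bound of the defect** -/
theorem low (lam N k β' : ℝ) (h0 : 0 ≤ lam) (h1 : lam ≤ 1) (hk : 0 < k) (hF : FIXA lam N (4 * k) β') (c : ℝ)
    (hc : 1 ≤ c) (ε : ℝ) (hε : 0 < ε) : ∃ K : ℝ, 0 ≤ K ∧
    ∀ (β : ℝ) (Ω : Type) [Fintype Ω] (γ : Type) (P : Law Ω) (l : Ω → Ry) (t : Ω → ℝ) (C : Ω → γ) (L w q : ℕ)
      (W : Ω → Cbx), w ≤ L → SyOk P l t →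
      (∀ ω, 0 < P.w ω → LbOk c L w (W ω) (l ω) (t ω) ∧ (W ω).u2 = 1 ∧ (W ω).u1 = (1 / 2 : ℝ) ^ q) →
      -((β' + ε - β) * w * Real.log 2 + K) ≤ Df c lam N (2 * k) β P l t C L w q W := by
  obtain ⟨K1, hK1⟩ := hF c hc ε hε
  refine ⟨max 0 K1, le_max_left _ _, ?_⟩
  intro β Ω _ γ P l t C L w q W hw hS hW
  have hcc : (0 : ℝ) ≤ c := by linarith
  have x1 := hK1 Ω γ P l t C L w (0, q) W hw hS fun ω hω => by
    obtain ⟨g1, g2, g3⟩ := hW ω hω
    exact ⟨g1, by simpa using g2, g3⟩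
  have x2 : XX c lam (4 * k) 0 P l t C (fun _ => (0, q)) L 0 ≤ XX c lam (2 * k) 0 P l t C (fun _ => (0, q)) L 0 :=
    H875.XX_mono_k hcc (Nat.zero_le _) h0 h1 (by linarith) le_rfl (by linarith) le_rfl
  have hK := le_max_right 0 K1
  unfold Df
  linarith

section fin

variable {Ω : Type} [Fintype Ω] {γ δ : Type}

theorem cpos {P : Law Ω} {D : Ω → δ} {d : δ} (h : 0 < P.pr D d) {ω : Ω} (hω : 0 < (P.cond D d).w ω) :
    0 < P.w ω ∧ D ω = d := by
  rw [P.cond_w D d h] at hω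
  by_cases hd : D ω = d
  · rw [if_pos hd] at hω
    refine ⟨?_, hd⟩
    rcases (P.nn ω).eq_or_lt with h0 | h0
    · rw [← h0, zero_div] at hω
      exact absurd hω (lt_irrefl _)
    · exact h0
  · rw [if_neg hd] at hω
    exact absurd hω (lt_irrefl _)

theorem prE_good (P : Law Ω) (Z : Ω → δ) (Good : δ → Prop) :
    prE P (fun ω => Good (Z ω)) = ∑ z ∈ img Z, P.pr Z z * (by classical exact if Good z then (1 : ℝ) else 0) := by
  classical
  have h1 : prE P (fun ω => Good (Z ω)) = P.ex (fun ω => if Good (Z ω) then (1 : ℝ) else 0) := by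
    unfold prE Law.ex
    rw [Finset.sum_filter]
    refine Finset.sum_congr rfl fun ω _ => ?_
    by_cases hg : Good (Z ω)
    · simp [hg]
    · simp [hg]
  rw [h1, U.ex_sum P Z]
  refine Finset.sum_congr rfl fun z hz => ?_
  rcases (P.pr_nonneg Z z).eq_or_lt with h0 | h0
  · rw [← h0, zero_mul, zero_mul]
  · congr 1
    rw [(P.cond Z z).ex_congr (g := fun _ => if Good z then (1 : ℝ) else 0) fun ω hω => by
      rw [(cpos h0 hω).2], Law.ex_const]

theorem syOk_cond {P : Law Ω} {l : Ω → Ry} {t : Ω → ℝ} (h : SyOk P l t) {Z : Ω → δ} {z : δ} (hz : 0 < P.pr Z z) :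
    SyOk (P.cond Z z) l t := fun ω hω => h ω (cpos hz hω).1

/-- Markov: a value of `Z` in `Good` where `D` is not much larger than its mean -/
theorem sel (P : Law Ω) (Z : Ω → δ) (D : δ → ℝ) (Good : δ → Prop) {B S T p0 : ℝ} (hB : 0 ≤ B)
    (hlow : ∀ z, 0 < P.pr Z z → -B ≤ D z) (hmean : ∑ z ∈ img Z, P.pr Z z * D z ≤ S) (hp0 : 0 < p0)
    (hp : p0 ≤ prE P (fun ω => Good (Z ω))) (hT : S + B ≤ p0 * T) : ∃ z, Good z ∧ 0 < P.pr Z z ∧ D z ≤ T := by
  classical
  by_contra hcon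
  push Not at hcon
  have x6 : ∑ z ∈ img Z, P.pr Z z * (D z + B) = ∑ z ∈ img Z, P.pr Z z * D z + B := by
    simp only [mul_add, Finset.sum_add_distrib]
    rw [← Finset.sum_mul, P.sum_pr_image Z, one_mul]
  have x7 : ∑ z ∈ img Z, P.pr Z z * ((if Good z then (1 : ℝ) else 0) * (T + B)) =
      prE P (fun ω => Good (Z ω)) * (T + B) := by
    rw [prE_good P Z Good, Finset.sum_mul]
    refine Finset.sum_congr rfl fun z _ => by ring
  have x8 : ∃ z ∈ img Z, Good z ∧ 0 < P.pr Z z := by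
    by_contra hno
    push Not at hno
    have : prE P (fun ω => Good (Z ω)) ≤ 0 := by
      rw [prE_good P Z Good]
      refine Finset.sum_nonpos fun z hz => ?_
      by_cases hg : Good z
      · rw [if_pos hg, mul_one]
        exact hno z hz hg
      · rw [if_neg hg, mul_zero]
    linarith
  obtain ⟨z0, hz0, hg0, hp1⟩ := x8
  have x9 : prE P (fun ω => Good (Z ω)) * (T + B) < ∑ z ∈ img Z, P.pr Z z * D z + B := by
    rw [← x6, ← x7]
    refine Finset.sum_lt_sum (fun z _ => ?_) ⟨z0, hz0, ?_⟩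
    · rcases (P.pr_nonneg Z z).eq_or_lt with h2 | h2
      · rw [← h2, zero_mul, zero_mul]
      · refine mul_le_mul_of_nonneg_left ?_ h2.le
        by_cases hg : Good z
        · rw [if_pos hg, one_mul]
          have := hcon z hg h2
          linarith
        · rw [if_neg hg, zero_mul]
          have := hlow z h2
          linarith
    · refine mul_lt_mul_of_pos_left ?_ hp1
      rw [if_pos hg0, one_mul]
      have := hcon z0 hg0 hp1
      linarith
  have g1 : -B ≤ ∑ z ∈ img Z, P.pr Z z * D z := by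
    have g2 : ∑ z ∈ img Z, P.pr Z z * (-B) ≤ ∑ z ∈ img Z, P.pr Z z * D z := by
      refine Finset.sum_le_sum fun z _ => ?_
      rcases (P.pr_nonneg Z z).eq_or_lt with h2 | h2
      · rw [← h2, zero_mul, zero_mul]
      · exact mul_le_mul_of_nonneg_left (hlow z h2) h2.le
    rw [← Finset.sum_mul, P.sum_pr_image Z, one_mul] at g2
    exact g2
  have y1 : 0 ≤ T := by
    by_contra hneg
    rw [not_le] at hneg
    have g0 : p0 * T < 0 := mul_neg_of_pos_of_neg hp0 hneg
    linarith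
  have y2 : p0 * (T + B) ≤ prE P (fun ω => Good (Z ω)) * (T + B) := mul_le_mul_of_nonneg_right hp (by linarith)
  have y3 : 0 ≤ p0 * B := by positivity
  rw [mul_add] at y2
  linarith

end fin

/-- **selection of a window**: in every set of values of `(window letter, G)` of probability `≥ p0` there is one whose
window is a near-extremal system (trivial letter, price `2 k`) -/
theorem wpick (lam N k β' : ℝ) (h0 : 0 ≤ lam) (h1 : lam ≤ 1) (hk : 0 < k) (hN : 0 ≤ N) (hβ' : 0 ≤ β')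
    (hF : FIXA lam N (4 * k) β') (c : ℝ) (hc : 1 ≤ c) (ε : ℝ) (hε : 0 < ε) : ∃ K : ℝ, 0 ≤ K ∧
    ∀ (β d d' p0 : ℝ) (Ω : Type) [Fintype Ω] (γ δ : Type) (P : Law Ω) (l : Ω → Ry) (t : Ω → ℝ) (C : Ω → γ) (G : Ω → δ)
      (L h q : ℕ) (W : Ω → Cbx), NEx c lam N k β d P l t C L h q W → ∀ a w : ℕ, a + w = h →
      ∀ Good : (γ × ℤ × (Fin 2 → ℤ) × ℤ) × δ → Prop, 0 < p0 → p0 ≤ prE P (fun ω => Good (wC a l t C ω, G ω)) →
      (d * h + (β' + ε - β) * a + max 0 (β' + ε - β) * w) * Real.log 2 + K +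
          Stk.hc P G (fun ω => (W ω, fl1 h (t ω), C ω)) + N * Stk.hc P G (fun ω => (l ω, C ω)) ≤
        p0 * (d' * w * Real.log 2) →
      ∃ z, Good z ∧ 0 < P.pr (fun ω => (wC a l t C ω, G ω)) z ∧
        NEx c lam N (2 * k) β d' (P.cond (fun ω => (wC a l t C ω, G ω)) z) (fun ω => wR a (l ω) (t ω))
          (fun ω => wt a (t ω)) (fun _ => ()) (L - a) w q (wB a w l t W) := by
  obtain ⟨K1, hK10, hK1⟩ := wsel lam N k β' h0 h1 hk hN hβ' hF c hc ε hε
  obtain ⟨K2, hK20, hK2⟩ := low lam N k β' h0 h1 hk hF c hc ε hε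
  refine ⟨K1 + K2, by positivity, ?_⟩
  intro β d d' p0 Ω _ γ δ P l t C G L h q W hE a w haw Good hp0 hp hD
  have hl2 : 0 < Real.log 2 := Real.log_pos (by norm_num)
  have hcc : (0 : ℝ) ≤ c := by linarith
  have x1 := hK1 β d Ω γ δ P l t C G L h q W hE a w haw
  set Z : Ω → (γ × ℤ × (Fin 2 → ℤ) × ℤ) × δ := fun ω => (wC a l t C ω, G ω) with hZ
  rw [Df_mix hcc h0 h1 (by linarith) Z] at x1
  -- window data
  have hLw : ∀ ω, 0 < P.w ω → LbOk c (L - a) w (wB a w l t W ω) (wR a (l ω) (t ω)) (wt a (t ω)) ∧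
      (wB a w l t W ω).u2 = 1 ∧ (wB a w l t W ω).u1 = (1 / 2 : ℝ) ^ q := fun ω hω => by
    obtain ⟨g1, g2, g3⟩ := hE.lb ω hω
    rw [← haw] at g1
    exact ⟨lb_win g1, g2, g3⟩
  have hhL := hE.hL
  -- lower bound
  obtain ⟨z, g1, g2, g3⟩ := sel P Z (fun z => Df c lam N (2 * k) β (P.cond Z z)
      (fun ω => wR a (l ω) (t ω)) (fun ω => wt a (t ω)) (fun _ => ()) (L - a) w q (wB a w l t W)) Good
    (B := max 0 (β' + ε - β) * w * Real.log 2 + K2) (T := d' * w * Real.log 2) (by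
      have := le_max_left 0 (β' + ε - β)
      positivity) (fun z hz => by
      have g1 := hK2 β Ω Unit (P.cond Z z) (fun ω => wR a (l ω) (t ω)) (fun ω => wt a (t ω)) (fun _ => ()) (L - a) w q
        (wB a w l t W) (by omega) (syOk_cond (syOk_win hE.ok) hz) fun ω hω => hLw ω (cpos hz hω).1
      have g2 : (β' + ε - β) * w * Real.log 2 ≤ max 0 (β' + ε - β) * w * Real.log 2 := by
        have := le_max_right 0 (β' + ε - β)
        gcongr
      linarith) x1 hp0 hp (by linarith)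
  refine ⟨z, g1, g2, syOk_cond (syOk_win hE.ok) g2, by omega, fun ω hω => hLw ω (cpos g2 hω).1, ?_⟩
  unfold Df at g3
  linarith

/-- **selection of a value of a letter** (no window, same price) -/
theorem pick (lam N k k' β' : ℝ) (h0 : 0 ≤ lam) (h1 : lam ≤ 1) (hk : 0 ≤ k) (hkk : k ≤ k') (hN : 0 ≤ N)
    (hF : FIXA lam N k' β') (c : ℝ) (hc : 1 ≤ c) (ε : ℝ) (hε : 0 < ε) : ∃ K : ℝ, 0 ≤ K ∧
    ∀ (β d d' p0 : ℝ) (Ω : Type) [Fintype Ω] (γ δ : Type) (P : Law Ω) (l : Ω → Ry) (t : Ω → ℝ) (C : Ω → γ) (G : Ω → δ)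
      (L h q : ℕ) (W : Ω → Cbx), NEx c lam N k β d P l t C L h q W →
      ∀ Good : γ × δ → Prop, 0 < p0 → p0 ≤ prE P (fun ω => Good (C ω, G ω)) →
      (d + max 0 (β' + ε - β)) * h * Real.log 2 + K +
          Stk.hc P G (fun ω => (W ω, fl1 h (t ω), C ω)) + N * Stk.hc P G (fun ω => (l ω, C ω)) ≤
        p0 * (d' * h * Real.log 2) →
      ∃ z, Good z ∧ 0 < P.pr (fun ω => (C ω, G ω)) z ∧
        NEx c lam N k β d' (P.cond (fun ω => (C ω, G ω)) z) l t (fun _ => ()) L h q W := by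
  obtain ⟨K2, hK2⟩ := hF c hc ε hε
  refine ⟨max 0 K2, le_max_left _ _, ?_⟩
  intro β d d' p0 Ω _ γ δ P l t C G L h q W hE Good hp0 hp hD
  have hl2 : 0 < Real.log 2 := Real.log_pos (by norm_num)
  have hcc : (0 : ℝ) ≤ c := by linarith
  have hhL := hE.hL
  have hK := le_max_right 0 K2
  set Z : Ω → γ × δ := fun ω => (C ω, G ω) with hZ
  have x1 : Df c lam N k β P l t (fun ω => ((), Z ω)) L h q W ≤ d * h * Real.log 2 +
      Stk.hc P G (fun ω => (W ω, fl1 h (t ω), C ω)) + N * Stk.hc P G (fun ω => (l ω, C ω)) := by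
    have y1 : XX c lam k 0 P l t (fun ω => ((), Z ω)) (fun _ => (0, q)) L 0 ≤
        XX c lam k 0 P l t C (fun _ => (0, q)) L 0 :=
      H875.XX_mono_C hcc (Nat.zero_le _) h0 h1 hk le_rfl fun ω ω' _ _ e => congrArg (fun z => z.2.1) e
    have y2 := U.val_pair (lam := lam) (P := P) (l := l) (t := t) (C := C) (a := h) G W
    have y3 := U.Dd_pair_le (P := P) (l := l) (t := t) (C := C) (a := h) G
    have y4 : val lam P l t (fun ω => ((), Z ω)) h W = val lam P l t (fun ω => (C ω, G ω)) h W := by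
      refine le_antisymm (U.val_mono_C ?_ _) (U.val_mono_C ?_ _)
      · intro ω ω' _ _ e
        exact congrArg Prod.snd e
      · intro ω ω' _ _ e
        simp only [Prod.mk.injEq, true_and]
        exact e
    have y5 : Dd P l t (fun ω => ((), Z ω)) h = Dd P l t (fun ω => (C ω, G ω)) h := by
      refine U.Dd_congr_C ?_ ?_
      · intro ω ω' _ _ e
        exact congrArg Prod.snd e
      · intro ω ω' _ _ e
        simp only [Prod.mk.injEq, true_and]
        exact e
    have y6 := mul_le_mul_of_nonneg_left y3 hN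
    rw [mul_add] at y6
    have y7 := hE.ex
    unfold Df
    rw [y4, y5]
    linarith
  rw [Df_mix hcc h0 h1 hk Z] at x1
  obtain ⟨z, g1, g2, g3⟩ := sel P Z (fun z => Df c lam N k β (P.cond Z z) l t (fun _ => ()) L h q W) Good
    (B := max 0 (β' + ε - β) * h * Real.log 2 + max 0 K2) (T := d' * h * Real.log 2) (by
      have := le_max_left 0 (β' + ε - β)
      positivity) (fun z hz => by
      have g1 := hK2 Ω Unit (P.cond Z z) l t (fun _ => ()) L h (0, q) W (by omega) (syOk_cond hE.ok hz)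
        fun ω hω => by
          obtain ⟨e1, e2, e3⟩ := hE.lb ω (cpos hz hω).1
          exact ⟨e1, by simpa using e2, e3⟩
      have g2 : (β' + ε - β) * h * Real.log 2 ≤ max 0 (β' + ε - β) * h * Real.log 2 := by
        have := le_max_right 0 (β' + ε - β)
        gcongr
      have g3 : XX c lam k' 0 (P.cond Z z) l t (fun _ => ()) (fun _ => (0, q)) L 0 ≤
          XX c lam k 0 (P.cond Z z) l t (fun _ => ()) (fun _ => (0, q)) L 0 :=
        H875.XX_mono_k hcc (Nat.zero_le _) h0 h1 hk le_rfl hkk le_rfl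
      unfold Df
      linarith) x1 hp0 hp (by linarith)
  refine ⟨z, g1, g2, syOk_cond hE.ok g2, hhL, fun ω hω => hE.lb ω (cpos g2 hω).1, ?_⟩
  unfold Df at g3
  linarith

end Vale.Agent.P106.U.H61
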