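import Vale.Agent.P106.U.H61.RegE
import Vale.Agent.P106.U.H61.POld
import Vale.Agent.P106.U.H661.SLx
import Vale.Agent.P106.U.H715.LowS

/-!
# P106 / U / H61 : row [S], the old part at one place (helper61)

* `yS_labs` : the sum `yS` of a record is the sum over the used labels `(a, r)`.
* **`place_o`** : at a good value of the word, the part of row [S] of the steps whose level is not young is at most the sum over the
  labels `(a, r)`, `a ≤ ha`, `r ≤ B`, of 661's label terms, plus `(g + 1) B log nFew` (levels `≤ g`).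
-/

set_option autoImplicit false

namespace Vale.Agent.P106.U.H61.PlaceO

open Finset Vale.Agent.P127 Vale.Agent.P127.Stk Vale.Agent.P127.U Vale.Agent.P106.W
open Vale.Agent.P127.U.CellD (q2)
open Vale.Agent.P106.U Vale.Agent.P106.U.H449
open Vale.Agent.P106.U.LinkR Vale.Agent.P106.U.InsL Vale.Agent.P106.U.InpC Vale.Agent.P106.U.StripL
open Vale.Agent.P106.U.H565 Vale.Agent.P106.U.H823.NumW Vale.Agent.P106.U.H823.PathNum
open Vale.Agent.P106.U.H823.PathP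
open Vale.Agent.P106.U.H712.Fam (Win Vl Pl)
open Vale.Agent.P106.U.S3 (Run Pf LTh LDk At' IdO F2b lv)
open Vale.Agent.P106.U.H101 (lc)
open Vale.Agent.P106.U.H61.Ext2 Vale.Agent.P106.U.H61.PS Vale.Agent.P106.U.H61.Reg
open Vale.Agent.P106.U.H661.SLab Vale.Agent.P106.U.H661.Age Vale.Agent.P106.U.H661.SD
open Vale.Agent.P106.U.H715.OldS Vale.Agent.P106.U.H523.FewS

/-- membership in a filter, any instance -/
theorem mf {α : Type} {q : α → Prop} {inst : DecidablePred q} {s : Finset α} {a : α} (h : a ∈ @Finset.filter α q inst s) :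
    a ∈ s ∧ q a := (@Finset.mem_filter α q inst s a).1 h

section lab

variable {Ω : Type} [Fintype Ω] {τ υ : Type}

open Classical in
/-- **the sum over the used labels** -/
theorem yS_labs {D : PN} {R : Run Ω τ υ} {q : Run.Num} (H : Has D R q) {A B bS : ℕ} {Vs Xs : Finset ℕ} {μ : ℕ}
    {o : Fin 7 → ℝ} {d : ℕ} {Y : ℕ → Prop} (hA : ∀ k ≤ R.n, lv R k < A) :
    yS R q B bS Vs Xs μ o d Y = ∑ y ∈ range A ×ˢ range (B + 1),
      if Val D ((IdO R Vs Xs).filter fun k => Y (lv R k)) B d y then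
        mi R.Q (LTh (lc R.C μ o) (R.m * R.b1) (iy D d y)) ((lc R.C μ o).cell (kx D y) bS)
          (LDk (lc R.C μ o) (R.m * R.b1) (kx D y)) else 0 := by
  have hn : R.n ≤ D.N := by have := H.N; omega
  have hmem : ∀ k ∈ (IdO R Vs Xs).filter (fun k => Y (lv R k)), k ≤ R.n := by
    intro k hk
    have h1 := (Finset.mem_filter.1 hk).1
    unfold IdO at h1
    exact (Finset.mem_Icc.1 (Finset.mem_filter.1 h1).1).2
  unfold yS
  exact sum_pair' H _ (fun k hk => (hmem k hk).trans hn)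
    (fun k hk => by rw [← lv_eq H ((hmem k hk).trans hn)]; exact hA k (hmem k hk)) _

end lab

section place

variable {σ : S5.Cst} {cc : ℝ} {J M Md : ℕ} {p : Par} {X0 R0 h0 : ℕ} {Ω : Type} [Fintype Ω]
  (x : Ctx σ cc J M Md p X0 R0 h0 Ω)

open Classical in
/-- the term of 661's label -/
noncomputable def tm (oo : Oo) (b0 μ : ℕ) (o : Fin 7 → ℝ) (a r d k : ℕ) (ω : Ω) : ℝ :=
  if h : p.k1 ≤ ag (kp x b0 a d) k ω ∧ (lD x oo b0 μ o a r d).val k (x.w b0 k ω) then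
    mi (x.Q1.cond (x.w b0 k) (x.w b0 k ω)) ((lD x oo b0 μ o a r d).Tv k (x.w b0 k ω) h.2)
      ((lD x oo b0 μ o a r d).Ev k (x.w b0 k ω) h.2) ((lD x oo b0 μ o a r d).Dv k (x.w b0 k ω) h.2) else 0

theorem tm_nonneg (oo : Oo) (b0 μ : ℕ) (o : Fin 7 → ℝ) (a r d k : ℕ) (ω : Ω) : 0 ≤ tm x oo b0 μ o a r d k ω := by
  unfold tm
  split_ifs
  · exact mi_nonneg _ _ _ _
  · exact le_rfl

variable {x} {oo : Oo} {b0 k : ℕ} {ω : Ω}

/-- **the labels of the levels `> g`**, at the data of the place -/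
theorem labs_le {μ : ℕ} {o : Fin 7 → ℝ} {d : ℕ} (h : x.Ok oo 0 b0 k (x.w b0 k ω)) :
    yS (x.R oo b0 k (x.w b0 k ω) h.hz) (x.C oo b0 k (x.w b0 k ω) h.hz).num p.B (x.cap b0 k) (x.Vs k (x.w b0 k ω))
      (x.Xs b0 k (x.w b0 k ω)) μ o d
      (fun a => ¬ yn (x.win oo b0) (H715.RegC.Fo x.c x.E1) (MM p) p.g d p.k1 k (x.w b0 k ω) a ∧ p.g < a) ≤
      ∑ a ∈ range (x.c.I.ha + 1), ∑ r ∈ range (p.B + 1), tm x oo b0 μ o a r d k ω := by
  classical
  obtain ⟨Ac, rc, Hy⟩ := h.hyp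
  have H : Has (x.C oo b0 k (x.w b0 k ω) h.hz).D (x.R oo b0 k (x.w b0 k ω) h.hz) (x.C oo b0 k (x.w b0 k ω) h.hz).num :=
    x.hasO oo h.hz h.bits
  have hA : ∀ i ≤ (x.R oo b0 k (x.w b0 k ω) h.hz).n, lv (x.R oo b0 k (x.w b0 k ω) h.hz) i < x.c.I.ha + 1 := by
    intro i _
    have e : lv (x.R oo b0 k (x.w b0 k ω) h.hz) i = (x.C oo b0 k (x.w b0 k ω) h.hz).D.li i := C2.lv_eq Hy i
    have h1 := H428.RunPt.li_le (x.C oo b0 k (x.w b0 k ω) h.hz) i
    have h2 : x.c.I.Ab + x.c.I.J + 4 ≤ x.c.I.A'b := x.good.Ab1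
    have h3 : x.c.I.A'b + x.c.I.J + 4 ≤ x.c.I.ha := x.good.Ab2
    have h4 : (x.C oo b0 k (x.w b0 k ω) h.hz).D.li i ≤ x.c.I.Ab + x.c.I.J := h1
    rw [e]
    omega
  rw [yS_labs H hA, ← Finset.sum_product']
  refine Finset.sum_le_sum fun y _ => ?_
  split_ifs with hv
  · obtain ⟨v1, v2, v3, v4, v5⟩ := id hv
    obtain ⟨w1, w2⟩ := mf v1
    unfold IdO at w1
    rw [Finset.mem_filter, Finset.mem_Icc] at w1
    have hn : kx (x.C oo b0 k (x.w b0 k ω) h.hz).D y ≤ (x.C oo b0 k (x.w b0 k ω) h.hz).D.N := hv.k_lt.le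
    rw [lv_eq H hn, hv.lev] at w2
    obtain ⟨w3, w4⟩ := w2
    have hJ : (x.C oo b0 k (x.w b0 k ω) h.hz).D.L.J y.1 + d ≤ (x.C oo b0 k (x.w b0 k ω) h.hz).D.L.J (y.1 + d) := by
      have h1 := (x.C oo b0 k (x.w b0 k ω) h.hz).D.L.R_mono (show y.1 ≤ y.1 + d by omega)
      have h2 := (x.C oo b0 k (x.w b0 k ω) h.hz).D.L.F_mono (show y.1 ≤ y.1 + d by omega)
      unfold Lv.J
      omega
    have V : V0 (x.C oo b0 k (x.w b0 k ω) h.hz).D p.B p.g y.1 y.2 d := by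
      refine ⟨hv.r_le, ?_, w4, v2, ?_, v3, v4, v5⟩
      · unfold kx iy at v3 v4
        omega
      · exact w1.1.2
    have hva : (lD x oo b0 μ o y.1 y.2 d).val k (x.w b0 k ω) := ⟨h, V⟩
    have hag : p.k1 ≤ ag (kp x b0 y.1 d) k ω := by
      have h1 : ¬ ag (kp x b0 y.1 d) k ω < p.k1 := fun h2 => w3 ((yn_iff (x.win oo b0) ω).2 h2)
      omega
    unfold tm
    rw [dif_pos ⟨hag, hva⟩]
    exact le_rfl
  · exact tm_nonneg _ _ _ _ _ _ _ _ _ _

open Classical in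
/-- **the old part of row [S] at one place** -/
theorem place_o (hω : 0 < x.Q1.w ω) (h8 : 8 * p.B < b0) (hg : ∀ j ≤ k, (x.w b0 k ω).1 j = true) {μ : ℕ} (hμ : μ ≤ p.B)
    (hr : 8 * μ ≤ x.c.I.rs) (o : Fin 7 → ℝ) (d : ℕ) :
    yS ((x.win oo b0).R k (x.w b0 k ω)) ((x.win oo b0).nm k (x.w b0 k ω)) p.B ((x.win oo b0).bS p.fp k)
      ((x.win oo b0).Vs p.fp k (x.w b0 k ω)) ((x.win oo b0).Xs p.fp k (x.w b0 k ω)) μ o d
      (fun a => ¬ yn (x.win oo b0) (H715.RegC.Fo x.c x.E1) (MM p) p.g d p.k1 k (x.w b0 k ω) a) ≤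
      ∑ a ∈ range (x.c.I.ha + 1), ∑ r ∈ range (p.B + 1),
        (if h : p.k1 ≤ ag (kp x b0 a d) k ω ∧ (lD x oo b0 μ o a r d).val k (x.w b0 k ω) then
          mi (x.Q1.cond (x.w b0 k) (x.w b0 k ω)) ((lD x oo b0 μ o a r d).Tv k (x.w b0 k ω) h.2)
            ((lD x oo b0 μ o a r d).Ev k (x.w b0 k ω) h.2) ((lD x oo b0 μ o a r d).Dv k (x.w b0 k ω) h.2) else 0) +
      ((p.g : ℝ) + 1) * (p.B * Real.log (nFew p.m p.B μ)) := by
  have hz : 0 < x.Q1.pr (x.w b0 k) (x.w b0 k ω) := x.Q1.pr_pos _ hω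
  have hOk := x.ok oo hz h8 (Nat.zero_le k) hg
  -- two parts
  refine (yS_mono (Y' := fun a => (¬ yn (x.win oo b0) (H715.RegC.Fo x.c x.E1) (MM p) p.g d p.k1 k (x.w b0 k ω) a ∧ p.g < a) ∨
    a ≤ p.g) fun a ha => ?_).trans ((yS_or_le _ _).trans (add_le_add ?_ ?_))
  · rcases Nat.lt_or_ge p.g a with h1 | h1
    · exact Or.inl ⟨ha, h1⟩
    · exact Or.inr h1
  · -- the levels `> g`
    have e1 : (x.win oo b0).cv k (x.w b0 k ω) = x.C oo b0 k (x.w b0 k ω) hz := (x.win oo b0).cv_eq hz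
    have key : ∀ (C' : C2 Ω) (h3 : 3 ≤ C'.I.m), C' = x.C oo b0 k (x.w b0 k ω) hz →
        yS (C'.erun h3) C'.num p.B (x.cap b0 k) (x.Vs k (x.w b0 k ω)) (x.Xs b0 k (x.w b0 k ω)) μ o d
          (fun a => ¬ yn (x.win oo b0) (H715.RegC.Fo x.c x.E1) (MM p) p.g d p.k1 k (x.w b0 k ω) a ∧ p.g < a) ≤
        ∑ a ∈ range (x.c.I.ha + 1), ∑ r ∈ range (p.B + 1), tm x oo b0 μ o a r d k ω := by
      intro C' h3 hC
      subst hC
      exact labs_le hOk
    exact key _ _ e1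
  · -- the levels `≤ g`
    have h1 := yS_le (x.win oo b0) (x.ho oo b0) p.fp hz hg (o := o) (d := d) (fun a => a ≤ p.g) hμ x.eB h8 hr
    rw [show (x.win oo b0).c.I.m = p.m from x.em] at h1
    refine h1.trans (mul_le_mul_of_nonneg_right ?_ (mul_nonneg (Nat.cast_nonneg _) (Real.log_natCast_nonneg _)))
    have h8 : ((p.g : ℝ) + 1) = ((p.g + 1 : ℕ) : ℝ) := by push_cast; ring
    rw [h8]
    refine Nat.cast_le.2 ?_
    refine (Finset.card_le_card (t := range (p.g + 1)) fun a ha' => ?_).trans (Finset.card_range _).le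
    have h9 := (mf ha').2.2.2
    rw [Finset.mem_range]
    exact Nat.lt_succ_of_le h9

end place

end Vale.Agent.P106.U.H61.PlaceO
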