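import Vale.Agent.P106.U.H61.Reg
import Vale.Agent.P106.U.H480.AvgS

/-!
# P106 / U / H61 : from sums per label to the sums over the places (row [REG], second part)

* `kx D x`, `iy D d x` : indices of the label `x = (a, r)` : `k = J a - r`, `i = J (a + d)`; `Val D S B d x` : the label is used.
* `Val.kx_le`, `Val.lev`, `Val.la_k`, `Val.la_i`, `Val.lk`, `Val.lf` : level and numbers of a used label.
* `ex_pair` : the mean over a word of a sum over pairs is a sum over labels of means;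
  `ex_pair_le` : the sum over the caps of a window, from bounds per label;  `ex_pair_place` : over the places.
-/

set_option autoImplicit false

namespace Vale.Agent.P106.U.H61.Reg

open Finset Vale.Agent.P127 Vale.Agent.P127.Stk Vale.Agent.P106.U
open Vale.Agent.P106.U.H823.PathP Vale.Agent.P106.U.H823.PathNum

/-- index of the label -/
def kx (D : PN) (x : ℕ × ℕ) : ℕ := D.L.J x.1 - x.2

/-- index of the later step -/
def iy (D : PN) (d : ℕ) (x : ℕ × ℕ) : ℕ := D.L.J (x.1 + d)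

/-- the label is used -/
def Val (D : PN) (S : Finset ℕ) (B d : ℕ) (x : ℕ × ℕ) : Prop :=
  kx D x ∈ S ∧ beg D.L x.1 + x.2 ≤ D.L.J x.1 ∧ kx D x < iy D d x ∧ iy D d x ≤ kx D x + B ∧ iy D d x < D.N

section facts

variable {D : PN} {S : Finset ℕ} {B d : ℕ} {x : ℕ × ℕ}

theorem Val.lev (h : Val D S B d x) : D.L.lev (kx D x) = x.1 := lev_sub D.L h.2.1

theorem Val.lev_i : D.L.lev (iy D d x) = x.1 + d := D.L.lev_J _

theorem Val.i_lt (h : Val D S B d x) : iy D d x < D.N := h.2.2.2.2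

theorem Val.k_lt (h : Val D S B d x) : kx D x < D.N := h.2.2.1.trans h.2.2.2.2

theorem Val.r_le (h : Val D S B d x) : x.2 ≤ B := by
  obtain ⟨_, h1, h2, h3, _⟩ := h
  unfold kx iy at *
  have h4 : D.L.J x.1 ≤ D.L.J (x.1 + d) := D.L.J_mono.monotone (Nat.le_add_right _ _)
  omega

/-- digits of the time -/
theorem Val.la_k (h : Val D S B d x) : D.la (kx D x) = D.m * x.1 := by rw [D.la_eq h.k_lt.le, h.lev]

theorem Val.la_i (h : Val D S B d x) : D.la (iy D d x) = D.m * (x.1 + d) := by rw [D.la_eq h.i_lt.le, Val.lev_i]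

theorem Val.li_k (h : Val D S B d x) : D.li (kx D x) = x.1 := by rw [D.li_eq h.k_lt.le, h.lev]

theorem Val.li_i (h : Val D S B d x) : D.li (iy D d x) = x.1 + d := by rw [D.li_eq h.i_lt.le, Val.lev_i]

/-- digits of the line -/
theorem Val.lk_k (h : Val D S B d x) : D.lk (kx D x) = D.r0 + D.m * max (D.L.Rm x.1) (D.R x.1 - x.2) := by
  rw [D.lk_eq h.k_lt.le]
  unfold kx
  rw [k_sub D.L h.2.1]
  rfl

theorem Val.lf_k (h : Val D S B d x) :
    D.lf (kx D x) = D.r0 + D.m * (D.F x.1 + D.o - (x.2 - (D.R x.1 - D.L.Rm x.1))) := by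
  rw [D.lf_eq h.k_lt.le]
  unfold kx
  rw [f_sub D.L h.2.1]
  rfl

theorem Val.lk_i (h : Val D S B d x) : D.lk (iy D d x) = D.r0 + D.m * D.R (x.1 + d) := by
  rw [D.lk_eq h.i_lt.le]
  unfold iy
  rw [D.L.k_J]
  rfl

theorem Val.lf_i (h : Val D S B d x) : D.lf (iy D d x) = D.r0 + D.m * (D.F (x.1 + d) + D.o) := by
  rw [D.lf_eq h.i_lt.le]
  unfold iy
  rw [D.L.f_J]
  rfl

end facts

section sums

variable {Ω : Type} [Fintype Ω] {τ υ : Type} {p : S3.Run.Num}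

open Classical in
/-- `sum_pair`, with the names -/
theorem sum_pair' {D : PN} {R : S3.Run Ω τ υ} (H : Has D R p) {B d A : ℕ} (S : Finset ℕ) (hS : ∀ k ∈ S, k ≤ D.N)
    (hA : ∀ k ∈ S, D.L.lev k < A) (g : ℕ → ℕ → ℝ) :
    ∑ k ∈ S, ∑ i ∈ S3.At' R p B d k, g k i =
      ∑ x ∈ range A ×ˢ range (B + 1), if Val D S B d x then g (kx D x) (iy D d x) else 0 := by
  rw [sum_pair H S hS hA g]
  refine Finset.sum_congr rfl fun x _ => ?_
  exact if_congr Iff.rfl rfl rfl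

variable (P : Law Ω)

open Classical in
/-- **the mean over a word of a sum over pairs** -/
theorem ex_pair {Ω' : Type} [Fintype Ω'] {τ' υ' : Type} {D : Ω → PN} {R : Ω → S3.Run Ω' τ' υ'} {p : Ω → S3.Run.Num}
    {S : Ω → Finset ℕ} {B d A : ℕ} (H : ∀ ω, 0 < P.w ω → Has (D ω) (R ω) (p ω))
    (hS : ∀ ω, 0 < P.w ω → ∀ k ∈ S ω, k ≤ (D ω).N ∧ (D ω).L.lev k < A) (g : Ω → ℕ → ℕ → ℝ) :
    P.ex (fun ω => ∑ k ∈ S ω, ∑ i ∈ S3.At' (R ω) (p ω) B d k, g ω k i) =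
      ∑ x ∈ range A ×ˢ range (B + 1),
        P.ex (fun ω => if Val (D ω) (S ω) B d x then g ω (kx (D ω) x) (iy (D ω) d x) else 0) := by
  rw [← H565.ex_sum' P (range A ×ˢ range (B + 1)) fun x ω =>
    if Val (D ω) (S ω) B d x then g ω (kx (D ω) x) (iy (D ω) d x) else 0]
  refine P.ex_congr fun ω hω => ?_
  exact sum_pair' (H ω hω) (S ω) (fun k hk => (hS ω hω k hk).1) (fun k hk => (hS ω hω k hk).2) (g ω)

open Classical in
/-- **the caps of a window** -/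
theorem ex_pair_le {Ω' : Type} [Fintype Ω'] {τ' υ' : Type} {D : ℕ → Ω → PN} {R : ℕ → Ω → S3.Run Ω' τ' υ'}
    {p : ℕ → Ω → S3.Run.Num} {S : ℕ → Ω → Finset ℕ} {B d A Tc : ℕ}
    (H : ∀ k < Tc, ∀ ω, 0 < P.w ω → Has (D k ω) (R k ω) (p k ω))
    (hS : ∀ k < Tc, ∀ ω, 0 < P.w ω → ∀ j ∈ S k ω, j ≤ (D k ω).N ∧ (D k ω).L.lev j < A)
    (f : ℕ → Ω → ℝ) (g : ℕ → Ω → ℕ → ℕ → ℝ)
    (hf : ∀ k < Tc, ∀ ω, 0 < P.w ω → f k ω ≤ ∑ j ∈ S k ω, ∑ i ∈ S3.At' (R k ω) (p k ω) B d j, g k ω j i)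
    (bd : ℕ × ℕ → ℝ) (hb : ∀ x ∈ range A ×ˢ range (B + 1), ∑ k ∈ range Tc,
      P.ex (fun ω => if Val (D k ω) (S k ω) B d x then g k ω (kx (D k ω) x) (iy (D k ω) d x) else 0) ≤ bd x) :
    ∑ k ∈ range Tc, P.ex (f k) ≤ ∑ x ∈ range A ×ˢ range (B + 1), bd x := by
  calc ∑ k ∈ range Tc, P.ex (f k)
      ≤ ∑ k ∈ range Tc, ∑ x ∈ range A ×ˢ range (B + 1),
        P.ex (fun ω => if Val (D k ω) (S k ω) B d x then g k ω (kx (D k ω) x) (iy (D k ω) d x) else 0) := by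
        refine Finset.sum_le_sum fun k hk => ?_
        rw [← ex_pair P (H k (Finset.mem_range.1 hk)) (hS k (Finset.mem_range.1 hk)) (g k)]
        exact P.ex_mono (hf k (Finset.mem_range.1 hk))
    _ = ∑ x ∈ range A ×ˢ range (B + 1), ∑ k ∈ range Tc,
        P.ex (fun ω => if Val (D k ω) (S k ω) B d x then g k ω (kx (D k ω) x) (iy (D k ω) d x) else 0) :=
        Finset.sum_comm
    _ ≤ _ := Finset.sum_le_sum hb

open Classical in
/-- **the places** -/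
theorem ex_pair_place {Ω' : Type} [Fintype Ω'] {τ' υ' : Type} {D : ℕ → ℕ → Ω → PN} {R : ℕ → ℕ → Ω → S3.Run Ω' τ' υ'}
    {p : ℕ → ℕ → Ω → S3.Run.Num} {S : ℕ → ℕ → Ω → Finset ℕ} {B d A Tc nB : ℕ}
    (H : ∀ b < nB, ∀ k < Tc, ∀ ω, 0 < P.w ω → Has (D b k ω) (R b k ω) (p b k ω))
    (hS : ∀ b < nB, ∀ k < Tc, ∀ ω, 0 < P.w ω → ∀ j ∈ S b k ω, j ≤ (D b k ω).N ∧ (D b k ω).L.lev j < A)
    (f : ℕ → ℕ → Ω → ℝ) (g : ℕ → ℕ → Ω → ℕ → ℕ → ℝ)
    (hf : ∀ b < nB, ∀ k < Tc, ∀ ω, 0 < P.w ω →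
      f b k ω ≤ ∑ j ∈ S b k ω, ∑ i ∈ S3.At' (R b k ω) (p b k ω) B d j, g b k ω j i)
    (bd : ℕ → ℕ × ℕ → ℝ) (hb : ∀ b < nB, ∀ x ∈ range A ×ˢ range (B + 1), ∑ k ∈ range Tc,
      P.ex (fun ω => if Val (D b k ω) (S b k ω) B d x then g b k ω (kx (D b k ω) x) (iy (D b k ω) d x) else 0) ≤ bd b x) :
    ∑ b ∈ range nB, ∑ k ∈ range Tc, P.ex (f b k) ≤ ∑ b ∈ range nB, ∑ x ∈ range A ×ˢ range (B + 1), bd b x :=
  Finset.sum_le_sum fun b hb' => ex_pair_le P (H b (Finset.mem_range.1 hb')) (hS b (Finset.mem_range.1 hb')) (f b) (g b)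
    (hf b (Finset.mem_range.1 hb')) (bd b) (hb b (Finset.mem_range.1 hb'))

end sums

end Vale.Agent.P106.U.H61.Reg
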