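import Vale.Agent.P106.U.H61.NrmDefs
import Vale.Agent.P106.U.H127.NEx
import Vale.Agent.P106.U.H513.Ext

/-!
# P106 / U / H61 : from class `c` to strict labels

`strict` : a near-extremal system of class `c` gives one of class `100` whose label has class `1/1000` (smaller cap, then zoom).
-/

set_option autoImplicit false

namespace Vale.Agent.P106.U.H61

open Finset Vale.Agent.P127 Vale.Agent.P127.Stk Vale.Agent.P127.U Vale.Agent.P106.W Vale.Agent.P106.K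
open Vale.Agent.P106.U

theorem lbOk_mono {c c' : ℝ} (hcc : c ≤ c') {L a : ℕ} {B : Cbx} {l : Ry} {t : ℝ} (h : LbOk c L a B l t) :
    LbOk c' L a B l t := by
  obtain ⟨⟨b, R, h1, h2, h3, h4⟩, h5, h6, ⟨i1, i2, i3, i4, i5⟩⟩ := h
  have u2 : 0 ≤ B.u2 := by rw [h1]; positivity
  have u1 : 0 ≤ B.u1 := by rw [h2]; positivity
  refine ⟨⟨b, R, h1, h2, h3, h4⟩, h5.trans hcc, h6.trans hcc, fun k => (i1 k).trans (mul_le_mul_of_nonneg_right hcc u2),
    fun k => (i2 k).trans (mul_le_mul_of_nonneg_right hcc u2), i3.trans (mul_le_mul_of_nonneg_right hcc (le_max_right _ _)),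
    i4.trans (mul_le_mul_of_nonneg_right hcc u1), i5.trans (mul_le_mul_of_nonneg_right hcc u1)⟩

theorem strict (c lam N k : ℝ) (hc : 1 ≤ c) (h0 : 0 ≤ lam) (h1 : lam ≤ 1) (hk : 0 ≤ k) (hN : 0 ≤ N) :
    ∃ (K : ℝ) (D : ℕ), 0 ≤ K ∧ ∀ (β d d2 : ℝ) (Ω : Type) [Fintype Ω] (γ : Type) (P : Law Ω) (l : Ω → Ry) (t : Ω → ℝ)
      (C : Ω → γ) (L h q : ℕ) (W : Ω → Cbx), NEx c lam N k β d P l t C L h q W →
      K ≤ (d2 - d) * h * Real.log 2 →
      ∃ (l' : Ω → Ry) (C' : Ω → γ × Ry) (L' q' : ℕ) (W' : Ω → Cbx), NEx 100 lam N k β d2 P l' t C' L' h q' W' ∧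
        (∀ ω, 0 < P.w ω → LbOk (1 / 1000) L' h (W' ω) (l' ω) (t ω)) ∧ q' ≤ q ∧ q ≤ q' + D := by
  have hlog : 0 < Real.log 2 := Real.log_pos (by norm_num)
  obtain ⟨D, K1, hK1, hext⟩ := H513.ext_law hc (show (0 : ℝ) < 1 / 1000 by norm_num)
  obtain ⟨K2, hK2, hcls⟩ := H513.cls_X (c := 100) (c₁ := c) (lam := lam) (by norm_num) (by linarith) h0 h1
  have hkcc : 0 ≤ H127.kcc (1 / 1000) := by
    unfold H127.kcc
    have : ∀ n : ℕ, 0 ≤ Real.log (2 * (n : ℝ) + 3) := fun n =>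
      Real.log_nonneg (by linarith [Nat.cast_nonneg (α := ℝ) n])
    have a1 := this ⌈2 * (1 / 1000 : ℝ)⌉₊
    have a2 := this ⌈(1 / 1000 : ℝ)⌉₊
    have a3 := this ⌈3 * (1 / 1000 : ℝ) + (1 / 1000) ^ 2⌉₊
    linarith
  refine ⟨K1 + (1 + 0 + k) * K2 + k * (D * Real.log 2) + H127.kcc (1 / 1000), D, by positivity, ?_⟩
  intro β d d2 Ω _ γ P l t C L h q W hE hd
  obtain ⟨A, hA, hAe⟩ := hext P l t L h 0 W (fun ω hω => by simpa using (hE.lb ω hω).1)
  set p : ℕ := min D q with hp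
  have hpq : p ≤ q := min_le_right _ _
  have hpD : p ≤ D := min_le_left _ _
  have hhL := hE.hL
  have hAs : ∀ ω, 0 < P.w ω → (A ω).u2 = (1 / 2 : ℝ) ^ p ∧ (A ω).u1 = (1 / 2 : ℝ) ^ q := fun ω hω => by
    obtain ⟨g1, g2, g3⟩ := hE.lb ω hω
    have := (hA ω hω).2 0 q (by rw [g2, pow_zero]) g3 (Nat.zero_le _)
    simpa using this
  -- the value of `A`
  have v1 : Stk.hc P l (fun ω => (W ω, fl1 h (t ω), C ω)) ≤ Stk.hc P l (fun ω => (A ω, fl1 h (t ω), C ω)) + K1 := by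
    have := H513.ext_hc P l t C h 0 W A (x := K1) (by simpa using hAe)
    simpa using this
  have v2 : val lam P l t C h W ≤ val lam P l t C h A + K1 := by
    have e1 : P.ex (fun ω => (3 + lam) * Real.log (A ω).u2 + (1 - lam) * Real.log (A ω).u1) ≤
        P.ex (fun ω => (3 + lam) * Real.log (W ω).u2 + (1 - lam) * Real.log (W ω).u1) := by
      refine P.ex_mono fun ω hω => ?_
      obtain ⟨g1, g2, g3⟩ := hE.lb ω hω
      rw [(hAs ω hω).1, (hAs ω hω).2, g2, g3, H416.log_half, Real.log_one]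
      have : (0 : ℝ) ≤ p * Real.log 2 := by positivity
      nlinarith
    unfold val
    linarith
  -- the zoom
  have w1 := H127.XX_cap (P := P) (l := l) (t := t) (C := C) (L := L) (a := 0) (c := 100) (lam := lam) (k := k)
    (p := p) (R := q) (by norm_num) ⟨h0, h1⟩ hk hpq (by omega)
  have w2 := hcls Ω γ P l t C (fun _ => (p, q)) L 0 k 0 hk le_rfl (Nat.zero_le _)
  have w3 := H875.XX_le_target (c := c) (lam := lam) (k := k) (La := 0) (P := P) (l := l) (t := t) (C := C)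
    (e := fun _ => (p, q)) (e' := fun _ => (0, q)) (L := L) (a := 0) (by linarith) (Nat.zero_le _) h0 h1 hk le_rfl
  have w4 : P.ex (fun ω => (|((((fun _ => (p, q)) : Ω → ℕ × ℕ) ω).1 : ℝ) - (((fun _ => (0, q)) : Ω → ℕ × ℕ) ω).1| +
      |((((fun _ => (p, q)) : Ω → ℕ × ℕ) ω).2 : ℝ) - (((fun _ => (0, q)) : Ω → ℕ × ℕ) ω).2|) * Real.log 2) =
      p * Real.log 2 := by
    have : (fun ω : Ω => (|((((fun _ => (p, q)) : Ω → ℕ × ℕ) ω).1 : ℝ) - (((fun _ => (0, q)) : Ω → ℕ × ℕ) ω).1| +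
      |((((fun _ => (p, q)) : Ω → ℕ × ℕ) ω).2 : ℝ) - (((fun _ => (0, q)) : Ω → ℕ × ℕ) ω).2|) * Real.log 2) =
      fun _ => p * Real.log 2 := by
      funext ω
      simp
    rw [this, Law.ex_const]
  rw [w4] at w3
  have w5 := H127.val_cap (lam := lam) (P := P) (l := l) (t := t) (C := C) (p := p) (h := h) A (fun ω hω => by
    rw [(hAs ω hω).1, (hAs ω hω).2]
    constructor <;> positivity)
  have w6 := H127.hc_cc (P := P) (l := l) (t := t) (C := C) (c := 1 / 1000) (h := h) (p := p) (W := A) (by norm_num) hE.ok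
    (fun ω hω => ⟨(hA ω hω).1.inn, (hAs ω hω).1⟩)
  have w7 := mul_le_mul_of_nonneg_left (H127.Dd_cap (P := P) (l := l) (t := t) (C := C) (p := p) (h := h)) hN
  have w8 : k * (p * Real.log 2) ≤ k * (D * Real.log 2) := by
    have : (p : ℝ) ≤ D := by exact_mod_cast hpD
    gcongr
  have hlb : ∀ ω, 0 < P.w ω → LbOk (1 / 1000) (L - p) h (zmB p (bl h (cc p (l ω)) (t ω)) (A ω)) (cp p (l ω)) (t ω) := by
    intro ω hω
    refine LbOk_zm (cc p (l ω)) (A ω) (l ω) (t ω) (hA ω hω).1 fun b' R' q1 q2 => ?_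
    have e1 : b' = p := H127.half_inj (q1.symm.trans (hAs ω hω).1)
    have e2 : R' = q := H127.half_inj (q2.symm.trans (hAs ω hω).2)
    subst e1 e2
    exact ⟨le_rfl, hpq⟩
  refine ⟨fun ω => cp p (l ω), fun ω => (C ω, cc p (l ω)), L - p, q - p,
    fun ω => zmB p (bl h (cc p (l ω)) (t ω)) (A ω), ⟨fun ω hω => ⟨cp_ok p (l ω), (hE.ok ω hω).2⟩, by omega,
      fun ω hω => ⟨lbOk_mono (by norm_num) (hlb ω hω), ?_, ?_⟩, ?_⟩, hlb, Nat.sub_le _ _, by omega⟩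
  · show (zmB p (bl h (cc p (l ω)) (t ω)) (A ω)).u2 = 1
    rw [zmB_u2, (hAs ω hω).1, H127.two_half_sub le_rfl, Nat.sub_self, pow_zero]
  · show (zmB p (bl h (cc p (l ω)) (t ω)) (A ω)).u1 = (1 / 2 : ℝ) ^ (q - p)
    rw [zmB_u1, (hAs ω hω).2, H127.two_half_sub hpq]
  · have := hE.ex
    have e9 : (d2 - d) * h * Real.log 2 = (β - d) * h * Real.log 2 - (β - d2) * h * Real.log 2 := by ring
    linarith

end Vale.Agent.P106.U.H61
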